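import Vale.Agent.P267.H306.Wdg

/-!
# P267 / XA-T2 (helper306): du Bois-Reymond lemma on the surface, locally represented functionals
-/

set_option linter.unusedVariables false
set_option linter.unusedSectionVars false

open scoped Manifold ContDiff ComplexConjugate Matrix ComplexOrder Topology
open MeasureTheory Set Filter Metric

noncomputable section

namespace Vale.Agent.P267.H306

open FL XT H533

variable {M : Type} [TopologicalSpace M] [ChartedSpace C2 M]
variable {ι : Type} [Fintype ι] [DecidableEq ι]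
variable [IsManifold 𝓘(ℂ, C2) ω M] [T2Space M]
variable {L : LB M ι} {N N' : Set M}

theorem bp_single (u : EuclideanSpace ℂ ι) (i : ι) : bp u (EuclideanSpace.single i 1) = u i := by
  simp [bp]

theorem eq_zero_of_bp {u : EuclideanSpace ℂ ι} (h : ∀ c, bp u c = 0) : u = 0 := by
  ext i
  rw [← bp_single, h]; rfl

theorem act_idem_dual (L : LB M ι) (x : M) (v : EuclideanSpace ℂ ι) :
    LB.act (L.P x) (LB.act (L.P x) v) = LB.act (L.P x) v := by
  rw [← act_mul, L.idem]

/-- integral of a form with compact support in a chart, whose component is `h φ` with `φ` a test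
function -/
theorem intX_eq_integral {b : M → ℂ} (hb : Reg2 ∞ 1 b) (hc : HasCompactSupport b) {e : Ch M}
    (he : e ∈ atlas C2 M) (hs : tsupport b ⊆ e.source) {g : C2 → ℂ}
    (hg : ∀ z ∈ e.target, loc2 1 e b z = g z) (hg0 : ∀ z ∉ e.target, g z = 0) :
    intX b = 4 * ∫ z, g z := by
  rw [intX_chart hb.locInt hc he hs]
  rw [← MeasureTheory.integral_const_mul, ← setIntegral_eq_integral_of_forall_compl_eq_zero
    (s := e.target) (f := fun z => 4 * g z) fun z hz => by rw [hg0 z hz, mul_zero]]
  exact setIntegral_congr_fun e.open_target.measurableSet fun z hz => by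
    simp only [hg z hz]

theorem isOpen_tgt (e : Ch M) (hN : IsOpen N) : IsOpen (e.target ∩ e.symm ⁻¹' N) :=
  e.symm.isOpen_inter_preimage hN

theorem symm_image_sub {e : Ch M} {K : Set C2} (hK : K ⊆ e.target ∩ e.symm ⁻¹' N) :
    e.symm '' K ⊆ N := by
  rintro _ ⟨z, hz, rfl⟩
  exact (hK hz).2

theorem dbr2 (hN : IsOpen N) {b : M → EuclideanSpace ℂ ι} (hb : ∀ x ∈ N, At2 ∞ 0 b x)
    (hs : ∀ x ∈ N, LB.act (L.P x) (b x) = b x)
    (h : ∀ φ, T0on L.dual 1 N φ → intX (pr b φ) = 0) : ∀ x ∈ N, b x = 0 := by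
  intro x₀ hx₀
  set e := chartAt C2 x₀ with he'
  have he : e ∈ atlas C2 M := chart_mem_atlas C2 x₀
  have hxs : x₀ ∈ e.source := mem_chart_source C2 x₀
  have hΩ := isOpen_tgt e hN
  set Ω := e.target ∩ e.symm ⁻¹' N with hΩd
  have hz₀ : e x₀ ∈ Ω := ⟨e.map_source hxs, by
    show e.symm (e x₀) ∈ N
    rw [e.left_inv hxs]; exact hx₀⟩
  have hcb : ContinuousOn (loc2 0 e b) Ω := fun z hz => by
    have h1 := (hb _ hz.2).chart he (e.map_target hz.1)
    rw [e.right_inv hz.1] at h1
    exact h1.continuousAt.continuousWithinAt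
  have key : ∀ c, bp (loc2 0 e b (e x₀)) c = 0 := by
    intro c
    have h2 : ContinuousOn (fun z => bp (loc2 0 e b z) c) Ω :=
      ((bpL (ι := ι)).flip c).continuous.comp_continuousOn hcb
    refine H869.eq_zero_of_test hΩ h2 (fun φ hφ => ?_) _ hz₀
    have hK : IsCompact (tsupport φ) := hφ.cpt
    have hKe : tsupport φ ⊆ e.target := hφ.supp.trans inter_subset_left
    set G : M → EuclideanSpace ℂ ι := H439.of0 1 e (fun z => φ z • c) with hG
    have hg0 : ∀ z ∉ tsupport φ, φ z • c = 0 := fun z hz => by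
      rw [image_eq_zero_of_notMem_tsupport hz, zero_smul]
    obtain ⟨hGc, hGs⟩ := H439.of0_supp (κ := 1) hK hKe hg0
    have hGr : Reg0 ∞ 1 G := H439.reg0_of0 he hK hKe hg0
      ((hφ.smooth.smul contDiff_const).contDiffOn)
    set Φ : M → EuclideanSpace ℂ ι := fun y => LB.act (L.dual.P y) (G y) with hΦ
    have hsup : tsupport Φ ⊆ tsupport G :=
      closure_mono fun y hy h0 => hy (by
        show LB.act (L.dual.P y) (G y) = 0
        rw [show G y = 0 from h0, act_zero])
    have hT : T0on L.dual 1 N Φ :=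
      ⟨reg0_act L.dual.smooth hGr, fun y => act_idem_dual L.dual y _,
        hGc.mono' ((subset_tsupport _).trans hsup),
        hsup.trans (hGs.trans (symm_image_sub hφ.supp))⟩
    have hreg := reg2_pr_of' hb hT.reg hT.supp
    have h3 : intX (pr b Φ) = 4 * ∫ z, bp (loc2 0 e b z) c * φ z := by
      refine intX_eq_integral hreg (compact_pr _ hT.cpt) he
        ((tsupport_pr _ _).trans (hsup.trans (hGs.trans (H439.symm_image_subset hKe))))
        (fun z hz => ?_) (fun z hz => ?_)
      · have h4 := loc2_bilin' (bpL (ι := ι)) (κ₁ := 0) (κ₂ := 1) he hz b Φ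
        rw [zero_add] at h4
        have h5 : (fun y => bpL (b y) (Φ y)) = pr b Φ := rfl
        rw [h5, bpL_apply, hΦ, loc0_act, hG, H439.loc0_of0 he hz] at h4
        rw [h4]
        by_cases hzN : e.symm z ∈ N
        · rw [show L.dual.P (e.symm z) = (L.P (e.symm z))ᵀ from rfl, ← bp_act]
          have h6 : LB.act (L.P (e.symm z)) (loc2 0 e b z) = loc2 0 e b z := by
            simp only [loc2, act_smul, hs _ hzN]
          rw [h6, bp_smul_right]; ring
        · have h7 : φ z = 0 := image_eq_zero_of_notMem_tsupport fun h => hzN (hφ.supp h).2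
          rw [h7, zero_smul, act_zero, bp_zero_right, mul_zero]
      · have h7 : φ z = 0 := image_eq_zero_of_notMem_tsupport fun h => hz (hφ.supp h).1
        rw [h7, mul_zero]
    rw [h Φ hT] at h3
    have h8 : (4 : ℂ) ≠ 0 := by norm_num
    exact (mul_eq_zero.1 h3.symm).resolve_left h8
  have h9 : loc2 0 e b (e x₀) = 0 := eq_zero_of_bp key
  refine H439.loc2_inj he hxs (κ := 0) (s := b) (t := fun _ => 0) ?_
  rw [h9]
  simp [loc2]

theorem dbr1 (hN : IsOpen N) {v : M → Fin 2 → EuclideanSpace ℂ ι} (hv : ∀ x ∈ N, At1 ∞ 0 v x)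
    (hs : ∀ x ∈ N, ∀ i, LB.act (L.P x) (v x i) = v x i)
    (h : ∀ η, T1on L.dual 1 N η → intX (wdg v η) = 0) : ∀ x ∈ N, v x = 0 := by
  intro x₀ hx₀
  set e := chartAt C2 x₀ with he'
  have he : e ∈ atlas C2 M := chart_mem_atlas C2 x₀
  have hxs : x₀ ∈ e.source := mem_chart_source C2 x₀
  have hΩ := isOpen_tgt e hN
  set Ω := e.target ∩ e.symm ⁻¹' N with hΩd
  have hz₀ : e x₀ ∈ Ω := ⟨e.map_source hxs, by
    show e.symm (e x₀) ∈ N
    rw [e.left_inv hxs]; exact hx₀⟩
  have hcb : ContinuousOn (loc1 0 e v) Ω := fun z hz => by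
    have h1 := (hv _ hz.2).chart he (e.map_target hz.1)
    rw [e.right_inv hz.1] at h1
    exact h1.continuousAt.continuousWithinAt
  -- `σ ∈ {0, 1}`: the test form has only the component `σ`
  have key : ∀ (σ : Fin 2) (c : EuclideanSpace ℂ ι), bp (loc1 0 e v (e x₀) (1 - σ)) c = 0 := by
    intro σ c
    have h2 : ContinuousOn (fun z => bp (loc1 0 e v z (1 - σ)) c) Ω :=
      ((bpL (ι := ι)).flip c).continuous.comp_continuousOn
        ((continuous_apply (1 - σ)).comp_continuousOn hcb)
    refine H869.eq_zero_of_test hΩ h2 (fun φ hφ => ?_) _ hz₀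
    have hK : IsCompact (tsupport φ) := hφ.cpt
    have hKe : tsupport φ ⊆ e.target := hφ.supp.trans inter_subset_left
    set G : M → Fin 2 → EuclideanSpace ℂ ι :=
      H439.of1 1 e (fun z => Pi.single σ (φ z • c)) with hG
    have hg0 : ∀ z ∉ tsupport φ, (Pi.single σ (φ z • c) : Fin 2 → EuclideanSpace ℂ ι) = 0 :=
      fun z hz => by rw [image_eq_zero_of_notMem_tsupport hz, zero_smul, Pi.single_zero]
    obtain ⟨hGc, hGs⟩ := H439.of1_supp (κ := 1) hK hKe hg0
    have hsm : ContDiff ℝ ∞ (fun z => (Pi.single σ (φ z • c) : Fin 2 → EuclideanSpace ℂ ι)) := by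
      rw [contDiff_pi]
      intro i
      by_cases hi : i = σ
      · subst hi
        simp only [Pi.single_eq_same]
        exact hφ.smooth.smul contDiff_const
      · simpa [Pi.single_eq_of_ne hi] using contDiff_const
    have hGr : Reg1 ∞ 1 G := H439.reg1_of1 he hK hKe hg0 hsm.contDiffOn
    set Φ : M → Fin 2 → EuclideanSpace ℂ ι := fun y i => LB.act (L.dual.P y) (G y i) with hΦ
    have hsup : tsupport Φ ⊆ tsupport G :=
      closure_mono fun y hy h0 => hy (by
        funext i
        show LB.act (L.dual.P y) (G y i) = 0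
        rw [show G y = 0 from h0, Pi.zero_apply, act_zero])
    have hT : T1on L.dual 1 N Φ :=
      ⟨reg1_act L.dual.smooth hGr, fun y i => act_idem_dual L.dual y _,
        hGc.mono' ((subset_tsupport _).trans hsup),
        hsup.trans (hGs.trans (symm_image_sub hφ.supp))⟩
    have hreg := reg2_wdg hv hT.reg hT.supp
    have h3 : intX (wdg v Φ) = 4 * ∫ z, (if σ = 1 then 1 else -1) *
        (bp (loc1 0 e v z (1 - σ)) c * φ z) := by
      refine intX_eq_integral hreg (compact_wdg _ hT.cpt) he
        ((tsupport_wdg _ _).trans (hsup.trans (hGs.trans (H439.symm_image_subset hKe))))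
        (fun z hz => ?_) (fun z hz => ?_)
      · have h4 := loc2_bilin11 (bpL (ι := ι)) (κ₁ := 0) (κ₂ := 1) he hz v Φ
        rw [zero_add] at h4
        have h5 : (fun y => bpL (v y 0) (Φ y 1) - bpL (v y 1) (Φ y 0)) = wdg v Φ := rfl
        rw [h5] at h4
        have h5' : ∀ i, loc1 1 e Φ z i = LB.act (L.dual.P (e.symm z))
            ((Pi.single σ (φ z • c) : Fin 2 → EuclideanSpace ℂ ι) i) := fun i => by
          rw [hΦ, loc1_act, hG, H439.loc1_of1 he hz]
        rw [bpL_apply, bpL_apply, h5', h5'] at h4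
        rw [h4]
        by_cases hzN : e.symm z ∈ N
        · have h6 : ∀ i w, bp (loc1 0 e v z i) (LB.act (L.dual.P (e.symm z)) w) =
              bp (loc1 0 e v z i) w := fun i w => by
            rw [show L.dual.P (e.symm z) = (L.P (e.symm z))ᵀ from rfl, ← bp_act]
            congr 1
            simp only [loc1, ← actL_apply, map_sum, map_smul]
            simp only [actL_apply, hs _ hzN]
          rw [h6, h6]
          fin_cases σ
          · simp [bp_smul_right]; ring
          · simp [bp_smul_right]; ring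
        · have h7 : φ z = 0 := image_eq_zero_of_notMem_tsupport fun h => hzN (hφ.supp h).2
          simp [h7, act_zero]
      · have h7 : φ z = 0 := image_eq_zero_of_notMem_tsupport fun h => hz (hφ.supp h).1
        rw [h7, mul_zero, mul_zero]
    rw [h Φ hT, MeasureTheory.integral_const_mul] at h3
    have h8 : (4 : ℂ) ≠ 0 := by norm_num
    have h8' : ((if σ = 1 then 1 else -1 : ℂ)) ≠ 0 := by split_ifs <;> norm_num
    exact (mul_eq_zero.1 ((mul_eq_zero.1 h3.symm).resolve_left h8)).resolve_left h8'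
  have h9 : ∀ i, loc1 0 e v (e x₀) i = 0 := fun i => eq_zero_of_bp fun c => by
    have := key (1 - i) c
    simpa using this
  refine H439.loc1_inj he hxs (κ := 0) (s := v) (t := fun _ _ => 0) fun i => ?_
  rw [h9]
  simp [loc1]

end Vale.Agent.P267.H306
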