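import Vale.Agent.P267.H306.Glue

/-!
# P267 / XA-T2 (helper306): equivariance of the glued solution
-/

set_option linter.unusedVariables false
set_option linter.unusedSectionVars false

open scoped Manifold ContDiff ComplexConjugate Matrix ComplexOrder Topology
open MeasureTheory Set Filter Metric

noncomputable section

namespace Vale.Agent.P267.H306

open FL XT H533

variable {M : Type} [TopologicalSpace M] [ChartedSpace C2 M]
variable {ι : Type} [Fintype ι] [DecidableEq ι]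

theorem at1_comp {V : Type*} [NormedAddCommGroup V] [NormedSpace ℂ V] {n : WithTop ℕ∞} {κ : ℤ}
    {g : M → M} (hg : ChartMap g) {v : M → Fin 2 → V} {y : M} (h : At1 n κ v (g y)) :
    At1 n κ (fun z => v (g z)) y := by
  have h1 : ContDiffAt ℝ n (loc1 κ (chartAt C2 (g y)) v) (chartAt C2 (g y) (g y)) := h
  rw [hg.apply_eq] at h1
  exact h1.congr_of_eventuallyEq (hg.loc1_germ κ v y).symm

variable {L : LB M ι} {N N' : Set M} {B : (M → Fin 2 → EuclideanSpace ℂ ι) → ℂ}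
variable {a : M → Fin 2 → ℂ} {D : XTData M}

theorem hasCompactSupport_sh {V : Type*} [Zero V] {f : M → V} (h : HasCompactSupport f) (k : ℤ) :
    HasCompactSupport fun x => f (D.sh k x) :=
  h.comp_homeomorph (D.γ ^ k)

theorem tsupport_sh {V : Type*} [Zero V] (f : M → V) (k : ℤ) :
    tsupport (fun x => f (D.sh k x)) = D.sh k ⁻¹' tsupport f := by
  have := (D.γ ^ k).isOpenMap.preimage_closure_eq_closure_preimage (D.γ ^ k).continuous
    (Function.support f)
  exact this.symm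

variable [IsManifold 𝓘(ℂ, C2) ω M]

theorem T1on.comp_sh {κ : ℤ} {η : M → Fin 2 → EuclideanSpace ℂ ι} (h : T1on L κ N η) {k : ℤ}
    (hP : ∀ x, L.P (D.sh k x) = L.P x) : T1on L κ (D.sh k ⁻¹' N) (fun x => η (D.sh k x)) :=
  ⟨(D.chartMap_sh k).reg1_comp h.reg, fun x i => by rw [← hP x]; exact h.sec _ i,
    hasCompactSupport_sh h.cpt k, by rw [tsupport_sh]; exact preimage_mono h.supp⟩

theorem T2on.comp_sh {κ : ℤ} {η : M → EuclideanSpace ℂ ι} (h : T2on L κ N η) {k : ℤ}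
    (hP : ∀ x, L.P (D.sh k x) = L.P x) : T2on L κ (D.sh k ⁻¹' N) (fun x => η (D.sh k x)) :=
  ⟨(D.chartMap_sh k).reg2_comp h.reg, fun x => by rw [← hP x]; exact h.sec _,
    hasCompactSupport_sh h.cpt k, by rw [tsupport_sh]; exact preimage_mono h.supp⟩

theorem T0on.comp_sh {κ : ℤ} {η : M → EuclideanSpace ℂ ι} (h : T0on L κ N η) {k : ℤ}
    (hP : ∀ x, L.P (D.sh k x) = L.P x) : T0on L κ (D.sh k ⁻¹' N) (fun x => η (D.sh k x)) :=
  ⟨(D.chartMap_sh k).reg0_comp h.reg, fun x => by rw [← hP x]; exact h.sec _,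
    hasCompactSupport_sh h.cpt k, by rw [tsupport_sh]; exact preimage_mono h.supp⟩

variable [T2Space M]

theorem RepAt.comp_sh {k : ℤ} {μ : ℂ} (hμ : μ ≠ 0) (hP : ∀ x, L.P (D.sh k x) = L.P x)
    (hB : ∀ η, T1on L.dual 1 univ η → B (fun x => η (D.sh k x)) = μ⁻¹ * B η)
    {x : M} {v : M → Fin 2 → EuclideanSpace ℂ ι} (h : RepAt L B (D.sh k x) v) :
    RepAt L B x (fun y => μ⁻¹ • v (D.sh k y)) := by
  obtain ⟨N, hN, hx, h1, h2, h3⟩ := h
  have hP' : ∀ x, L.dual.P (D.sh k x) = L.dual.P x := fun x => by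
    show (L.P (D.sh k x))ᵀ = (L.P x)ᵀ
    rw [hP]
  have hPn : ∀ x, L.dual.P (D.sh (-k) x) = L.dual.P x := fun x => by
    have := hP' (D.sh (-k) x)
    rw [D.sh_sh_neg] at this
    exact this.symm
  have hv : ∀ y ∈ D.sh k ⁻¹' N, At1 ∞ 0 (fun y => v (D.sh k y)) y := fun y hy =>
    at1_comp (D.chartMap_sh k) (h1 _ hy)
  refine ⟨D.sh k ⁻¹' N, hN.preimage (D.continuous_sh k), hx, fun y hy => ?_, fun y hy i => ?_,
    fun η hη => ?_⟩
  · exact (hv y hy).const_smul μ⁻¹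
  · show LB.act (L.P y) (μ⁻¹ • v (D.sh k y) i) = μ⁻¹ • v (D.sh k y) i
    rw [act_smul]
    congr 1
    rw [← hP y]
    exact h2 _ hy i
  · set ζ : M → Fin 2 → EuclideanSpace ℂ ι := fun y => η (D.sh (-k) y) with hζ
    have hζ1 : T1on L.dual 1 N ζ := (hη.comp_sh hPn).mono (by
      intro y hy
      have hy' : D.sh k (D.sh (-k) y) ∈ N := hy
      rwa [D.sh_sh_neg] at hy')
    have e1 : (fun x => ζ (D.sh k x)) = η := by
      funext x; simp only [hζ, D.sh_neg_sh]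
    have h4 := hB ζ (hζ1.mono (subset_univ _))
    rw [e1, h3 ζ hζ1] at h4
    have hr : Reg2 ∞ 1 (wdg v ζ) := reg2_wdg h1 hζ1.reg hζ1.supp
    rw [h4, ← intX_sh D k (hr.of_le (by simp)) (compact_wdg _ hζ1.cpt)]
    have e2 : (fun x => wdg v ζ (D.sh k x)) = wdg (fun y => v (D.sh k y)) η := by
      funext x; simp only [wdg, hζ, D.sh_neg_sh]
    rw [e2]
    have hr2 : Reg2 ∞ 1 (wdg (fun y => v (D.sh k y)) η) := reg2_wdg hv hη.reg hη.supp
    rw [← intX_const_mul hr2.locInt (compact_wdg _ hη.cpt)]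
    congr 1
    funext x
    simp only [wdg, Pi.smul_apply, bp_smul_left]
    ring

/-- **equivariance** of the representing form -/
theorem equiv_of_rep {k : ℤ} {μ : ℂ} (hμ : μ ≠ 0) (hP : ∀ x, L.P (D.sh k x) = L.P x)
    (hB : ∀ η, T1on L.dual 1 univ η → B (fun x => η (D.sh k x)) = μ⁻¹ * B η)
    {v : M → Fin 2 → EuclideanSpace ℂ ι} (h : ∀ x, RepAt L B x v) : D.Equiv k μ v := by
  intro x
  have h1 := ((h x).unique ((h (D.sh k x)).comp_sh hμ hP hB)).eq_of_nhds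
  have h2 : v x = μ⁻¹ • v (D.sh k x) := h1
  rw [h2, smul_smul, mul_inv_cancel₀ hμ, one_smul]

/-- equivariance of the corrected functional -/
theorem Bf_equiv {J : Type*} {k : ℤ} {μ : ℂ} (hP : ∀ x, L.P (D.sh k x) = L.P x)
    (hak : ∀ x, a (D.sh k x) = a x)
    {A : (M → Fin 2 → EuclideanSpace ℂ ι) → ℂ} {ρ : J → M → ℂ}
    {U : J → (M → EuclideanSpace ℂ ι) → ℂ} (ha : Reg1 ∞ 0 a) (hρ : ∀ p, Reg0 ∞ 0 (ρ p))
    (hA : ∀ η, T1on L.dual 1 univ η → A (fun x => η (D.sh k x)) = μ⁻¹ * A η) (τ : J ≃ J)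
    (hτρ : ∀ p x, ρ (τ p) (D.sh k x) = ρ p x)
    (hτU : ∀ p σ, T2on L.dual 1 (tsupport (ρ (τ p))) σ →
      U p (fun x => σ (D.sh k x)) = μ⁻¹ * U (τ p) σ)
    (η : M → Fin 2 → EuclideanSpace ℂ ι) (hη : T1on L.dual 1 univ η) :
    Bf L a A ρ U (fun x => η (D.sh k x)) = μ⁻¹ * Bf L a A ρ U η := by
  have hna : Reg1 ∞ 0 (-a) := reg1_neg ha
  have hP' : ∀ x, L.dual.P (D.sh k x) = L.dual.P x := fun x => by
    show (L.P (D.sh k x))ᵀ = (L.P x)ᵀ
    rw [hP]
  have hL : (D.chartMap_sh k).lb L.dual = L.dual := by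
    have : ((D.chartMap_sh k).lb L.dual).P = L.dual.P := by
      funext x; exact hP' x
    revert this
    generalize (D.chartMap_sh k).lb L.dual = L₁
    generalize L.dual = L₂
    intro h
    cases L₁; cases L₂
    simp only at h
    subst h
    rfl
  have hd : ∀ x, L.dual.db1 (-a) 1 (fun y => η (D.sh k y)) x = L.dual.db1 (-a) 1 η (D.sh k x) := by
    intro x
    have := (D.chartMap_sh k).lb_db1 L.dual (-a) 1 η x
    rw [hL] at this
    rw [← this]
    congr 1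
    funext z
    simp only [Pi.neg_apply, hak]
  have hT := hη.db1 hna
  have h1 : ∀ p, U p (fun x => ρ p x • L.dual.db1 (-a) 1 (fun x => η (D.sh k x)) x) =
      μ⁻¹ • U (τ p) (fun x => ρ (τ p) x • L.dual.db1 (-a) 1 η x) := by
    intro p
    have h2 : T2on L.dual 1 (tsupport (ρ (τ p))) (fun x => ρ (τ p) x • L.dual.db1 (-a) 1 η x) := by
      have h3 := hT.smul_fun (hρ (τ p))
      exact ⟨h3.reg, h3.sec, h3.cpt, closure_mono fun x hx h0 => hx (by
        show ρ (τ p) x • L.dual.db1 (-a) 1 η x = 0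
        rw [show ρ (τ p) x = 0 from h0, zero_smul])⟩
    rw [smul_eq_mul, ← hτU p _ h2]
    congr 1
    funext x
    rw [hτρ, hd]
  rw [Bf, Bf, hA η hη, mul_sub, finsum_congr h1, ← smul_finsum, smul_eq_mul]
  congr 2
  exact finsum_comp_equiv τ (f := fun p => U p (fun x => ρ p x • L.dual.db1 (-a) 1 η x))

end Vale.Agent.P267.H306
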