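import Vale.Agent.P267.H306.Dbr

/-!
# P267 / XA-T2 (helper306): gluing of local representations of a functional on `(0,1)`-forms
-/

set_option linter.unusedVariables false
set_option linter.unusedSectionVars false

open scoped Manifold ContDiff ComplexConjugate Matrix ComplexOrder Topology
open MeasureTheory Set Filter Metric

noncomputable section

namespace Vale.Agent.P267.H306

open FL XT H533

variable {M : Type} [TopologicalSpace M] [ChartedSpace C2 M]
variable {ι : Type} [Fintype ι] [DecidableEq ι]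

/-- near `x` the functional `B` is represented by the smooth form `v` -/
def RepAt (L : LB M ι) (B : (M → Fin 2 → EuclideanSpace ℂ ι) → ℂ) (x : M)
    (v : M → Fin 2 → EuclideanSpace ℂ ι) : Prop :=
  ∃ N : Set M, IsOpen N ∧ x ∈ N ∧ (∀ y ∈ N, At1 ∞ 0 v y) ∧
    (∀ y ∈ N, ∀ i, LB.act (L.P y) (v y i) = v y i) ∧
    ∀ η, T1on L.dual 1 N η → B η = intX (wdg v η)

variable {L : LB M ι} {N N' : Set M} {B : (M → Fin 2 → EuclideanSpace ℂ ι) → ℂ}
variable {a : M → Fin 2 → ℂ}

theorem act_sub' (A : Matrix ι ι ℂ) (v w : EuclideanSpace ℂ ι) :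
    LB.act A (v - w) = LB.act A v - LB.act A w := by
  rw [← actL_apply, map_sub]; rfl

theorem RepAt.nhds {x : M} {v : M → Fin 2 → EuclideanSpace ℂ ι} (h : RepAt L B x v) :
    ∀ᶠ y in 𝓝 x, RepAt L B y v := by
  obtain ⟨N, hN, hx, h1, h2, h3⟩ := h
  filter_upwards [hN.mem_nhds hx] with y hy
  exact ⟨N, hN, hy, h1, h2, h3⟩

theorem RepAt.at1 {x : M} {v : M → Fin 2 → EuclideanSpace ℂ ι} (h : RepAt L B x v) :
    At1 ∞ 0 v x := by
  obtain ⟨N, hN, hx, h1, h2, h3⟩ := h
  exact h1 x hx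

theorem RepAt.sec {x : M} {v : M → Fin 2 → EuclideanSpace ℂ ι} (h : RepAt L B x v) (i : Fin 2) :
    LB.act (L.P x) (v x i) = v x i := by
  obtain ⟨N, hN, hx, h1, h2, h3⟩ := h
  exact h2 x hx i

variable [IsManifold 𝓘(ℂ, C2) ω M] [T2Space M]

theorem wdg_congr_int {v v' : M → Fin 2 → EuclideanSpace ℂ ι} (h : ∀ y ∈ N, v y = v' y)
    {η : M → Fin 2 → EuclideanSpace ℂ ι} (hη : tsupport η ⊆ N) : wdg v η = wdg v' η := by
  funext y
  by_cases hy : y ∈ N
  · rw [wdg, wdg, h y hy]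
  · have h0 : η y = 0 := image_eq_zero_of_notMem_tsupport fun h => hy (hη h)
    rw [wdg_eq_zero_right h0, wdg_eq_zero_right h0]

theorem RepAt.congr {x : M} {v v' : M → Fin 2 → EuclideanSpace ℂ ι} (h : RepAt L B x v)
    (hv : v' =ᶠ[𝓝 x] v) : RepAt L B x v' := by
  obtain ⟨N, hN, hx, h1, h2, h3⟩ := h
  obtain ⟨O, hO, hOo, hxO⟩ := eventually_nhds_iff.1 hv
  refine ⟨N ∩ O, hN.inter hOo, ⟨hx, hxO⟩, fun y hy => ?_, fun y hy i => ?_, fun η hη => ?_⟩
  · refine (h1 y hy.1).congr ?_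
    filter_upwards [hOo.mem_nhds hy.2] with z hz
    exact hO z hz
  · rw [hO y hy.2]; exact h2 y hy.1 i
  · rw [h3 η (hη.mono inter_subset_left)]
    rw [wdg_congr_int (N := N ∩ O) (fun y hy => (hO y hy.2).symm) hη.supp]

theorem wdg_sub_int {v v' : M → Fin 2 → EuclideanSpace ℂ ι} (hv : ∀ y ∈ N, At1 ∞ 0 v y)
    (hv' : ∀ y ∈ N, At1 ∞ 0 v' y) {η : M → Fin 2 → EuclideanSpace ℂ ι} (hη : T1on L.dual 1 N η) :
    intX (wdg (fun y => v y - v' y) η) = intX (wdg v η) - intX (wdg v' η) := by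
  have h : wdg (fun y => v y - v' y) η = fun x => wdg v η x - wdg v' η x :=
    funext fun x => wdg_sub_left v v' η x
  rw [h, intX_sub (reg2_wdg hv hη.reg hη.supp).locInt (compact_wdg _ hη.cpt)
    (reg2_wdg hv' hη.reg hη.supp).locInt (compact_wdg _ hη.cpt)]

theorem RepAt.unique {x : M} {v v' : M → Fin 2 → EuclideanSpace ℂ ι} (h : RepAt L B x v)
    (h' : RepAt L B x v') : v =ᶠ[𝓝 x] v' := by
  obtain ⟨N, hN, hx, h1, h2, h3⟩ := h
  obtain ⟨N', hN', hx', h1', h2', h3'⟩ := h'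
  have hO : IsOpen (N ∩ N') := hN.inter hN'
  have key := dbr1 (L := L) hO (v := fun y => v y - v' y)
    (fun y hy => (h1 y hy.1).sub (h1' y hy.2))
    (fun y hy i => by rw [Pi.sub_apply, act_sub', h2 y hy.1 i, h2' y hy.2 i])
    (fun η hη => by
      rw [wdg_sub_int (N := N ∩ N') (fun y hy => h1 y hy.1) (fun y hy => h1' y hy.2) hη,
        ← h3 η (hη.mono inter_subset_left), ← h3' η (hη.mono inter_subset_right), sub_self])
  filter_upwards [hO.mem_nhds ⟨hx, hx'⟩] with y hy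
  exact sub_eq_zero.1 (key y hy)

/-- local representations glue -/
theorem exists_global {Q : M → (Fin 2 → EuclideanSpace ℂ ι) → Prop}
    (h : ∀ x, ∃ v, RepAt L B x v ∧ Q x (v x)) :
    ∃ v : M → Fin 2 → EuclideanSpace ℂ ι, (∀ x, RepAt L B x v) ∧ ∀ x, Q x (v x) := by
  choose w hw hQ using h
  refine ⟨fun x => w x x, fun x => ?_, hQ⟩
  refine (hw x).congr ?_
  filter_upwards [(hw x).nhds] with y hy
  exact ((hw y).unique hy).eq_of_nhds

/-- the representing form solves the equation -/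
theorem RepAt.db1_eq (ha : Reg1 ∞ 0 a) {r : M → EuclideanSpace ℂ ι} (hr : Reg2 ∞ 0 r)
    (hrs : L.Sec r)
    (hB : ∀ φ, T0on L.dual 1 univ φ → B (L.dual.db0 (-a) 1 φ) = intX (pr r φ)) {x : M}
    {v : M → Fin 2 → EuclideanSpace ℂ ι} (h : RepAt L B x v) : L.db1 a 0 v x = r x := by
  obtain ⟨N, hN, hx, h1, h2, h3⟩ := h
  have hna : Reg1 ∞ 0 (-a) := reg1_neg ha
  have hd : ∀ y ∈ N, At2 ∞ 0 (L.db1 a 0 v) y := fun y hy =>
    LB.at2_db1 le_rfl (ha.at y) (h1 y hy) infty_add_one_le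
  have key := dbr2 (L := L) hN (b := fun y => L.db1 a 0 v y - r y)
    (fun y hy => (hd y hy).sub (hr.at y))
    (fun y hy => by rw [act_sub', L.sec_db1 (h2 y hy), hrs y])
    (fun φ hφ => by
      have e1 : pr (fun y => L.db1 a 0 v y - r y) φ = fun y => pr (L.db1 a 0 v) φ y - pr r φ y := by
        funext y; simp only [pr, bp_sub_left]
      rw [e1, intX_sub (reg2_pr_of' hd hφ.reg hφ.supp).locInt (compact_pr _ hφ.cpt)
        (reg2_pr hr hφ.reg).locInt (compact_pr _ hφ.cpt), ← stokes1 ha h1 h2 hφ,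
        ← h3 _ (hφ.db0 hna), hB φ (hφ.mono (subset_univ _)), sub_self])
  exact sub_eq_zero.1 (key x hx)

/-! ### patches -/

section patches

variable {J : Type*}

/-- the corrected functional -/
def Bf (L : LB M ι) (a : M → Fin 2 → ℂ) (A : (M → Fin 2 → EuclideanSpace ℂ ι) → ℂ)
    (ρ : J → M → ℂ) (U : J → (M → EuclideanSpace ℂ ι) → ℂ)
    (η : M → Fin 2 → EuclideanSpace ℂ ι) : ℂ :=
  A η - ∑ᶠ p, U p (fun x => ρ p x • L.dual.db1 (-a) 1 η x)

variable {A : (M → Fin 2 → EuclideanSpace ℂ ι) → ℂ}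
variable {ρ : J → M → ℂ} {U : J → (M → EuclideanSpace ℂ ι) → ℂ}

theorem T2on.smul_fun {κ : ℤ} {f : M → ℂ} (hf : Reg0 ∞ 0 f) {σ : M → EuclideanSpace ℂ ι}
    (h : T2on L κ N σ) : T2on L κ N (fun x => f x • σ x) :=
  ⟨reg2_iff_at.2 fun x => At2.smul (hf.at x) (h.reg.at x), fun x => by rw [act_smul, h.sec x],
    h.cpt.mono fun x hx h0 => hx (by simp [show σ x = 0 from h0]),
    (closure_mono fun x (hx : f x • σ x ≠ 0) (h2 : σ x = 0) => hx (by simp [h2])).trans h.supp⟩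

theorem T2on.sum {κ : ℤ} {α : Type*} (s : Finset α) {σ : α → M → EuclideanSpace ℂ ι}
    (h : ∀ p ∈ s, T2on L κ N (σ p)) : T2on L κ N (fun x => ∑ p ∈ s, σ p x) := by
  classical
  induction s using Finset.induction_on with
  | empty => simpa using T2on.zero
  | insert p s hp ih =>
    have h2 := (h p (Finset.mem_insert_self p s)).add
      (ih fun q hq => h q (Finset.mem_insert_of_mem hq))
    refine (congrArg (T2on L κ N) ?_).mpr h2
    funext x
    rw [Finset.sum_insert hp]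

/-- the functional `V` is additive on `(0,2)`-forms supported in `N` -/
def Add2 (L : LB M ι) (N : Set M) (V : (M → EuclideanSpace ℂ ι) → ℂ) : Prop :=
  V (fun _ => 0) = 0 ∧
    ∀ σ σ', T2on L 1 N σ → T2on L 1 N σ' → V (fun x => σ x + σ' x) = V σ + V σ'

theorem Add2.sum {V : (M → EuclideanSpace ℂ ι) → ℂ} (hV : Add2 L N V) {α : Type*} (s : Finset α)
    {σ : α → M → EuclideanSpace ℂ ι} (h : ∀ p ∈ s, T2on L 1 N (σ p)) :
    V (fun x => ∑ p ∈ s, σ p x) = ∑ p ∈ s, V (σ p) := by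
  classical
  induction s using Finset.induction_on with
  | empty => simpa using hV.1
  | insert p s hp ih =>
    have h2 := hV.2 _ _ (h p (Finset.mem_insert_self p s))
      (T2on.sum s fun q hq => h q (Finset.mem_insert_of_mem hq))
    rw [ih fun q hq => h q (Finset.mem_insert_of_mem hq)] at h2
    rw [Finset.sum_insert hp, ← h2]
    congr 1
    funext x
    rw [Finset.sum_insert hp]

/-- everything needed near the point `x`: `l` = a patch containing `x`, `F` = the finite set of the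
patches `p` with `ρ_p ≠ 0` near `x`, `v p` = the function representing `U l - U p` -/
structure LocDat (L : LB M ι) (a : M → Fin 2 → ℂ) (A : (M → Fin 2 → EuclideanSpace ℂ ι) → ℂ)
    (ρ : J → M → ℂ) (U : J → (M → EuclideanSpace ℂ ι) → ℂ)
    (α : J → M → Fin 2 → EuclideanSpace ℂ ι) (x : M) (l : J) (F : Finset J) (N : Set M)
    (v : J → M → EuclideanSpace ℂ ι) : Prop where
  isOpen : IsOpen N
  mem : x ∈ N
  off : ∀ p ∉ F, ∀ y ∈ N, ρ p y = 0
  sum : ∀ y ∈ N, ∑ p ∈ F, ρ p y = 1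
  add : Add2 L.dual N (U l)
  rep : ∀ η, T1on L.dual 1 N η → A η = U l (L.dual.db1 (-a) 1 η) + intX (wdg (α l) η)
  at1 : ∀ y ∈ N, At1 ∞ 0 (α l) y
  sec1 : ∀ y ∈ N, ∀ i, LB.act (L.P y) (α l y i) = α l y i
  at0 : ∀ p ∈ F, ∀ y ∈ N, At0 ∞ 0 (v p) y
  sec0 : ∀ p ∈ F, ∀ y ∈ N, LB.act (L.P y) (v p y) = v p y
  diff : ∀ p ∈ F, ∀ σ, T2on L.dual 1 N σ → U l σ - U p σ = intX (pr (v p) σ)
  dv : ∀ p ∈ F, ∀ i, L.db0 a 0 (v p) x i = α l x i - α p x i

theorem pr_sum_smul {F : Finset J} {v : J → M → EuclideanSpace ℂ ι} {σ : M → EuclideanSpace ℂ ι} :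
    (fun x => ∑ p ∈ F, pr (v p) (fun y => ρ p y • σ y) x) =
      pr (fun y => ∑ p ∈ F, ρ p y • v p y) σ := by
  funext x
  simp only [pr, ← bpL_apply]
  rw [map_sum, sum_apply]
  exact Finset.sum_congr rfl fun p _ => by
    rw [map_smul, map_smul]; rfl

theorem LocDat.repAt (ha : Reg1 ∞ 0 a) (hρ : ∀ p, Reg0 ∞ 0 (ρ p))
    (hU : ∀ p, U p (fun _ => 0) = 0) {α : J → M → Fin 2 → EuclideanSpace ℂ ι} {x : M} {l : J}
    {F : Finset J} {v : J → M → EuclideanSpace ℂ ι} (h : LocDat L a A ρ U α x l F N v) :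
    RepAt L (Bf L a A ρ U) x
      (fun y => α l y - L.db0 a 0 (fun z => ∑ p ∈ F, ρ p z • v p z) y) := by
  have hna : Reg1 ∞ 0 (-a) := reg1_neg ha
  set V : M → EuclideanSpace ℂ ι := fun z => ∑ p ∈ F, ρ p z • v p z with hV
  have hV0 : ∀ y ∈ N, At0 ∞ 0 V y := fun y hy =>
    At0.sum fun p hp => ((hρ p).at y).smul (h.at0 p hp y hy)
  have hVs : ∀ y ∈ N, LB.act (L.P y) (V y) = V y := fun y hy => by
    rw [hV, ← actL_apply, map_sum]
    exact Finset.sum_congr rfl fun p hp => by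
      rw [map_smul, actL_apply, h.sec0 p hp y hy]
  have hdV : ∀ y ∈ N, At1 ∞ 0 (L.db0 a 0 V) y := fun y hy =>
    LB.at1_db0 le_rfl (ha.at y) (hV0 y hy) infty_add_one_le
  refine ⟨N, h.isOpen, h.mem, fun y hy => (h.at1 y hy).sub (hdV y hy), fun y hy i => ?_,
    fun η hη => ?_⟩
  · show LB.act (L.P y) (α l y i - L.db0 a 0 V y i) = α l y i - L.db0 a 0 V y i
    rw [act_sub', h.sec1 y hy i, LB.sec1_db0 L (hVs y hy) i]
  · have hd : T2on L.dual 1 N (L.dual.db1 (-a) 1 η) := hη.db1 hna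
    set σ := L.dual.db1 (-a) 1 η with hσ
    have hT : ∀ p, T2on L.dual 1 N (fun x => ρ p x • σ x) := fun p => hd.smul_fun (hρ p)
    have hoff : ∀ y ∉ N, σ y = 0 := fun y hy =>
      image_eq_zero_of_notMem_tsupport fun h => hy (hd.supp h)
    have h0 : ∀ p ∉ F, (fun x => ρ p x • σ x) = fun _ => 0 := fun p hp => by
      funext y
      by_cases hy : y ∈ N
      · rw [h.off p hp y hy, zero_smul]
      · rw [hoff y hy, smul_zero]
    have h1 : σ = fun x => ∑ p ∈ F, ρ p x • σ x := by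
      funext y
      by_cases hy : y ∈ N
      · rw [← Finset.sum_smul, h.sum y hy, one_smul]
      · simp [hoff y hy]
    have h2 : U l σ = ∑ p ∈ F, U l (fun x => ρ p x • σ x) := by
      conv_lhs => rw [h1]
      exact h.add.sum F fun p _ => hT p
    have h3 : ∑ᶠ p, U p (fun x => ρ p x • σ x) = ∑ p ∈ F, U p (fun x => ρ p x • σ x) := by
      apply finsum_eq_sum_of_support_subset
      intro p hp
      by_contra hpF
      exact hp (by simp only [h0 p hpF, hU p])
    rw [Bf, ← hσ, h3, h.rep η hη, ← hσ, h2]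
    have h4 : ∑ p ∈ F, U l (fun x => ρ p x • σ x) - ∑ p ∈ F, U p (fun x => ρ p x • σ x) =
        intX (pr V σ) := by
      rw [← Finset.sum_sub_distrib, hV, ← pr_sum_smul, intX_sum F
        (fun p hp => (reg2_pr_of (N := N) (h.at0 p hp) (hT p).reg (hT p).supp).locInt)
        (fun p hp => compact_pr _ (hT p).cpt)]
      exact Finset.sum_congr rfl fun p hp => h.diff p hp _ (hT p)
    have h5 := stokes0 ha hV0 hVs hη
    rw [← hσ] at h5
    rw [wdg_sub_int h.at1 hdV hη, h5]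
    linear_combination h4

/-- the value of the representing form at `x` -/
theorem LocDat.value (hρ : ∀ p, Reg0 ∞ 0 (ρ p))
    {α : J → M → Fin 2 → EuclideanSpace ℂ ι} {x : M} {l : J}
    {F : Finset J} {v : J → M → EuclideanSpace ℂ ι} (h : LocDat L a A ρ U α x l F N v)
    (ha : Reg1 ∞ 0 a) (i : Fin 2) :
    α l x i - L.db0 a 0 (fun z => ∑ p ∈ F, ρ p z • v p z) x i =
      ∑ p ∈ F, (ρ p x • α p x i - dbar0 0 (ρ p) x i • v p x) := by
  classical
  have h1 : ∀ s : Finset J, s ⊆ F → L.db0 a 0 (fun z => ∑ p ∈ s, ρ p z • v p z) x i =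
      ∑ p ∈ s, (dbar0 0 (ρ p) x i • v p x + ρ p x • (α l x i - α p x i)) := by
    intro s
    induction s using Finset.induction_on with
    | empty =>
      intro _
      simp [LB.db0, FL.dbar0_zero, act_zero]
    | insert p s hp ih =>
      intro hs
      have hpF := hs (Finset.mem_insert_self p s)
      have hsF := (Finset.subset_insert p s).trans hs
      have e1 : (fun z => ∑ q ∈ insert p s, ρ q z • v q z) =
          fun z => ρ p z • v p z + ∑ q ∈ s, ρ q z • v q z := by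
        funext z; rw [Finset.sum_insert hp]
      have a1 : At0 1 0 (fun z => ρ p z • v p z) x :=
        (((hρ p).at x).smul (h.at0 p hpF x h.mem)).of_le (by simp)
      have a2 : At0 1 0 (fun z => ∑ q ∈ s, ρ q z • v q z) x :=
        (At0.sum fun q hq => ((hρ q).at x).smul (h.at0 q (hsF hq) x h.mem)).of_le (by simp)
      rw [e1, LB.db0_add a1 a2, Pi.add_apply, ih hsF, Finset.sum_insert hp,
        LB.db0_smul (((hρ p).at x).of_le (by simp)) ((h.at0 p hpF x h.mem).of_le (by simp))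
          (h.sec0 p hpF x h.mem), h.dv p hpF i]
  rw [h1 F subset_rfl]
  have h2 : α l x i = ∑ p ∈ F, ρ p x • α l x i := by
    rw [← Finset.sum_smul, h.sum x h.mem, one_smul]
  nth_rewrite 1 [h2]
  rw [← Finset.sum_sub_distrib]
  refine Finset.sum_congr rfl fun p _ => ?_
  rw [smul_sub]
  abel

end patches

end Vale.Agent.P267.H306
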