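import Vale.Agent.P267.H306.Pch
import Vale.Agent.P267.H306.Eqv
import Vale.Agent.P267.H869.Patch

/-!
# P267 / XA-T2 (helper306): the patches of the periodic cover; uniform constants
-/

set_option linter.unusedVariables false
set_option linter.unusedSectionVars false

open scoped Manifold ContDiff ComplexConjugate Matrix ComplexOrder Topology
open MeasureTheory Set Filter Metric

noncomputable section

namespace Vale.Agent.P267.H306

open FL XT
open Vale.Agent.P267.H869 (mAt maxCS maxM Patch ng T1F T2F Af Af_eq Test)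
open Vale.Agent.P267.H181 (PCov DFrame)

variable {M : Type} [TopologicalSpace M] [ChartedSpace C2 M] [IsManifold 𝓘(ℂ, C2) ω M]
variable {ι : Type} [Fintype ι] [DecidableEq ι]
variable {D : XTData M} {𝒰 : PCov D}

/-! ### weights -/

theorem isWt_shift_nat {Λ : ℝ} {w : ℤ → ℝ} (h : IsWt Λ w) (k : ℤ) (n : ℕ) :
    w (k + n) ≤ Real.exp (|Λ| * n) * w k ∧ w k ≤ Real.exp (|Λ| * n) * w (k + n) := by
  induction n with
  | zero => simp
  | succ n ih =>
    have e1 : Real.exp (|Λ| * ((n + 1 : ℕ) : ℝ)) = Real.exp |Λ| * Real.exp (|Λ| * n) := by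
      rw [← Real.exp_add]; congr 1; push_cast; ring
    have e2 : k + ((n + 1 : ℕ) : ℤ) = k + n + 1 := by push_cast; ring
    have h1 : Real.exp Λ ≤ Real.exp |Λ| := Real.exp_le_exp.2 (le_abs_self Λ)
    have hp := h.pos (k + n)
    have hp1 := h.pos (k + n + 1)
    rw [e1, e2]
    constructor
    · calc w (k + n + 1) ≤ Real.exp Λ * w (k + n) := h.up _
        _ ≤ Real.exp |Λ| * w (k + n) := mul_le_mul_of_nonneg_right h1 hp.le
        _ ≤ Real.exp |Λ| * (Real.exp (|Λ| * n) * w k) :=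
            mul_le_mul_of_nonneg_left ih.1 (Real.exp_pos _).le
        _ = _ := by ring
    · calc w k ≤ Real.exp (|Λ| * n) * w (k + n) := ih.2
        _ ≤ Real.exp (|Λ| * n) * (Real.exp Λ * w (k + n + 1)) :=
            mul_le_mul_of_nonneg_left (h.down _) (Real.exp_pos _).le
        _ ≤ Real.exp (|Λ| * n) * (Real.exp |Λ| * w (k + n + 1)) :=
            mul_le_mul_of_nonneg_left (mul_le_mul_of_nonneg_right h1 hp1.le) (Real.exp_pos _).le
        _ = _ := by ring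

theorem isWt_le_of_abs {Λ : ℝ} {w : ℤ → ℝ} (h : IsWt Λ w) {j k : ℤ} (hjk : |j - k| ≤ 3) :
    w j ≤ Real.exp (3 * |Λ|) * w k := by
  rw [_root_.abs_le] at hjk
  have hexp : ∀ n : ℕ, (n : ℤ) ≤ 3 → Real.exp (|Λ| * n) ≤ Real.exp (3 * |Λ|) := fun n hn => by
    apply Real.exp_le_exp.2
    have h1 : (n : ℝ) ≤ 3 := by exact_mod_cast hn
    nlinarith [abs_nonneg Λ]
  rcases le_total k j with hkj | hkj
  · obtain ⟨n, hn⟩ := Int.eq_ofNat_of_zero_le (sub_nonneg.2 hkj)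
    have e : j = k + n := by omega
    rw [e]
    exact (isWt_shift_nat h k n).1.trans
      (mul_le_mul_of_nonneg_right (hexp n (by omega)) (h.pos k).le)
  · obtain ⟨n, hn⟩ := Int.eq_ofNat_of_zero_le (sub_nonneg.2 hkj)
    have e : k = j + n := by omega
    rw [e]
    exact (isWt_shift_nat h j n).2.trans
      (mul_le_mul_of_nonneg_right (hexp n (by omega)) (h.pos _).le)

/-! ### the patches -/

/-- the patch of a pair of dual frames -/
def mkPatch {C : ℝ} {i : Fin 𝒰.N} {k : ℤ} {L : LB M ι} {a : M → Fin 2 → ℂ}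
    {s t : M → EuclideanSpace ℂ ι} (h : DFrame 𝒰 C i k L a s t) : Patch L a where
  e := pch 𝒰 i k
  e_mem := pch_mem 𝒰 i k
  ball_sub := ball_subset_closedBall.trans (closedBall_sub_pch 𝒰 i k (by norm_num))
  s := s
  t := t
  s_reg x _ _ := h.reg.at x
  t_reg x _ _ := h.reg'.at x
  s_sec x _ _ := h.sec x
  t_sec x _ _ := h.sec' x
  s_hol x hx hx' := h.hol x (by
    have := (mem_pch_ball 𝒰 (r := 3) (by norm_num)).1 ⟨hx, hx'⟩
    norm_num at this ⊢; exact this)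
  t_hol x hx hx' := h.hol' x (by
    have := (mem_pch_ball 𝒰 (r := 3) (by norm_num)).1 ⟨hx, hx'⟩
    norm_num at this ⊢; exact this)
  st x hx hx' := h.one x (by
    have := (mem_pch_ball 𝒰 (r := 3) (by norm_num)).1 ⟨hx, hx'⟩
    norm_num at this ⊢; exact this)

section

variable {C : ℝ} {i : Fin 𝒰.N} {k : ℤ} {L : LB M ι} {a : M → Fin 2 → ℂ}
variable {s t : M → EuclideanSpace ℂ ι} (h : DFrame 𝒰 C i k L a s t)

@[simp] theorem mkPatch_e : (mkPatch h).e = pch 𝒰 i k := rfl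
@[simp] theorem mkPatch_s : (mkPatch h).s = s := rfl
@[simp] theorem mkPatch_t : (mkPatch h).t = t := rfl

theorem mem_dom_iff {r : ℝ} (hr : r ≤ 6) {x : M} :
    x ∈ (mkPatch h).dom r ↔ D.sh (-k) x ∈ 𝒰.B i (r / 6) :=
  mem_pch_ball 𝒰 hr

theorem dom3 {x : M} (hx : x ∈ (mkPatch h).dom 3) : D.sh (-k) x ∈ 𝒰.B i (1 / 2) := by
  have := (mem_dom_iff h (by norm_num)).1 hx
  norm_num at this ⊢; exact this

theorem norm_t_le {x : M} (hx : x ∈ (mkPatch h).dom 3) : ‖t x‖ ≤ C := h.ub' x (dom3 h hx)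

theorem norm_s_le {x : M} (hx : x ∈ (mkPatch h).dom 3) : ‖s x‖ ≤ C := h.ub x (dom3 h hx)

theorem dom_f {x : M} (hx : x ∈ (mkPatch h).dom 3) : |D.f x - k| ≤ 2 :=
  𝒰.abs_le (t := 1 / 2) (by norm_num) (𝒰.B_sub i _ (dom3 h hx))

theorem symm_dom {z : C2} (hz : z ∈ ball (0 : C2) 3) : (pch 𝒰 i k).symm z ∈ (mkPatch h).dom 3 :=
  (mkPatch h).symm_mem_dom le_rfl hz

end

/-! ### bound of the functional in a patch -/

theorem tsum_slab_le {Λ : ℝ} {w : ℤ → ℝ} (hw : IsWt Λ w) {F : ℤ → ℝ} {k : ℤ} {Q : ℝ} (hQ : 0 ≤ Q)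
    (hF : ∀ j, F j ≤ Q) (hF0 : ∀ j, 3 < |j - k| → F j = 0) :
    ∑' j, w j * F j ≤ 7 * Real.exp (3 * |Λ|) * w k * Q := by
  have h1 : ∑' j, w j * F j = ∑ j ∈ Finset.Icc (k - 3) (k + 3), w j * F j := by
    refine tsum_eq_sum fun j hj => ?_
    rw [hF0 j, mul_zero]
    by_contra hcon
    rw [not_lt, _root_.abs_le] at hcon
    exact hj (Finset.mem_Icc.2 ⟨by linarith [hcon.1], by linarith [hcon.2]⟩)
  rw [h1]
  have h2 : ∀ j ∈ Finset.Icc (k - 3) (k + 3), w j * F j ≤ Real.exp (3 * |Λ|) * w k * Q := by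
    intro j hj
    rw [Finset.mem_Icc] at hj
    have h3 : w j ≤ Real.exp (3 * |Λ|) * w k :=
      isWt_le_of_abs hw (by rw [_root_.abs_le]; constructor <;> linarith [hj.1, hj.2])
    calc w j * F j ≤ w j * Q := mul_le_mul_of_nonneg_left (hF j) (hw.pos j).le
      _ ≤ _ := mul_le_mul_of_nonneg_right h3 hQ
  refine (Finset.sum_le_card_nsmul _ _ _ h2).trans ?_
  rw [Int.card_Icc, nsmul_eq_mul]
  have : (((k + 3 + 1 - (k - 3)).toNat : ℕ) : ℝ) = 7 := by
    have : k + 3 + 1 - (k - 3) = 7 := by ring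
    rw [this]
    show ((7 : ℕ) : ℝ) = 7
    norm_num
  rw [this]
  linarith

variable [T2Space M]

theorem loc1_J1 {L : LB M ι} {a : M → Fin 2 → ℂ} (p : Patch L a) (g : C2 → Fin 2 → ℂ) {z : C2}
    (hz : z ∈ p.e.target) (j : Fin 2) :
    loc1 1 p.e (p.J1 g) z j = g z j • p.t (p.e.symm z) := by
  have h1 := congrFun (H869.max_loc1_ext1 (κ := 1) p.e_mem (g := g) hz) j
  simp only [loc1, Patch.J1] at h1 ⊢
  rw [← h1, smul_assoc, Finset.sum_smul]
  simp only [smul_assoc]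

theorem norm_loc1_J1_le {L : LB M ι} {a : M → Fin 2 → ℂ} (p : Patch L a) (g : C2 → Fin 2 → ℂ)
    {z : C2} (hz : z ∈ p.e.target) {B C : ℝ} (hB : ‖g z‖ ≤ B) (hC : ‖p.t (p.e.symm z)‖ ≤ C) :
    ‖loc1 1 p.e (p.J1 g) z‖ ≤ B * C := by
  have hB0 : 0 ≤ B := (norm_nonneg _).trans hB
  have hC0 : 0 ≤ C := (norm_nonneg _).trans hC
  rw [pi_norm_le_iff_of_nonneg (mul_nonneg hB0 hC0)]
  intro j
  rw [loc1_J1 p g hz, norm_smul]
  exact mul_le_mul ((norm_le_pi_norm (g z) j).trans hB) hC (norm_nonneg _) hB0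

/-- **(A3)** -/
theorem bd_patch {C₁ : ℝ} (hC₁ : 0 < C₁) (hcmp : ∀ (i : Fin 𝒰.N) (k : ℤ),
    ∀ z ∈ closedBall (0 : C2) 3, ∀ (a : M → Fin 2 → EuclideanSpace ℂ ι),
      ‖loc1 1 (pch 𝒰 i k) a z‖ ≤ C₁ * n1 D.h 1 a ((pch 𝒰 i k).symm z) ∧
      n1 D.h 1 a ((pch 𝒰 i k).symm z) ≤ C₁ * ‖loc1 1 (pch 𝒰 i k) a z‖)
    {C : ℝ} (hC : 1 ≤ C) {i : Fin 𝒰.N} {k : ℤ} {L : LB M ι} {a : M → Fin 2 → ℂ}
    {s t : M → EuclideanSpace ℂ ι} (h : DFrame 𝒰 C i k L a s t)
    (A : Test1 L.dual 1 →ₗ[ℂ] ℂ) {Λ : ℝ} {w : ℤ → ℝ} (hw : IsWt Λ w) {K : ℝ} (hK : 0 ≤ K)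
    (hA : ∀ η : Test1 L.dual 1, ‖A η‖ ≤ K * ∑' j, w j * D.p1 1
      (η : M → Fin 2 → EuclideanSpace ℂ ι) j) :
    (mkPatch h).Bd A (K * (7 * Real.exp (3 * |Λ|) * C₁ * C) * w k) := by
  intro g hg B hB
  have hT := (mkPatch h).t1F_J1 hg subset_rfl
  have hB0 : 0 ≤ B := (norm_nonneg _).trans (hB 0)
  rw [Patch.Lam, Af_eq A hT.mem]
  refine (hA _).trans ?_
  have hpt : ∀ x, n1 D.h 1 ((mkPatch h).J1 g) x ≤ C₁ * (B * C) := by
    intro x
    by_cases hx : x ∈ (mkPatch h).dom 3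
    · have hz : pch 𝒰 i k x ∈ closedBall (0 : C2) 3 := ball_subset_closedBall hx.2
      have h1 := (hcmp i k _ hz ((mkPatch h).J1 g)).2
      have hxs : x ∈ (pch 𝒰 i k).source := hx.1
      rw [(pch 𝒰 i k).left_inv hxs] at h1
      refine h1.trans (mul_le_mul_of_nonneg_left ?_ hC₁.le)
      refine norm_loc1_J1_le (mkPatch h) g ((pch 𝒰 i k).map_source hxs) (hB _) ?_
      rw [mkPatch_e, (pch 𝒰 i k).left_inv hxs]
      exact norm_t_le h hx
    · have h0 : (mkPatch h).J1 g x = 0 := by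
        refine (mkPatch h).J1_eq_zero (K := ball 0 3) (fun z hz => hg.eq_zero hz) ?_
        rintro ⟨z, hz, rfl⟩
        exact hx ((mkPatch h).symm_mem_dom le_rfl hz)
      rw [n1_eq_zero 1 h0]
      positivity
  have h2 := tsum_slab_le hw (F := fun j => D.p1 1 ((mkPatch h).J1 g) j) (k := k)
    (Q := C₁ * (B * C)) (by positivity)
    (fun j => D.prof_le (by positivity) fun x _ => hpt x)
    (fun j hj => by
      apply le_antisymm _ (p1_nonneg 1 _ j)
      refine D.prof_le le_rfl fun x hx => ?_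
      have h0 : (mkPatch h).J1 g x = 0 := by
        refine (mkPatch h).J1_eq_zero (K := ball 0 3) (fun z hz => hg.eq_zero hz) ?_
        rintro ⟨z, hz, rfl⟩
        have hd := dom_f h ((mkPatch h).symm_mem_dom le_rfl hz)
        obtain ⟨hx1, hx2⟩ := hx
        rw [_root_.abs_le] at hd
        have h3 : |((j : ℤ) : ℝ) - k| ≤ 3 := by
          rw [_root_.abs_le]; constructor <;> linarith [hd.1, hd.2]
        have h4 : |j - k| ≤ 3 := by exact_mod_cast h3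
        omega
      rw [n1_eq_zero 1 h0])
  calc K * _ ≤ K * _ := mul_le_mul_of_nonneg_left h2 hK
    _ = _ := by ring

end Vale.Agent.P267.H306
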