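import Vale.Agent.P267.H306.Pat

/-!
# P267 / XA-T2 (helper306): transition bounds, overlaps, partition of unity, equivariance of `U`
-/

set_option linter.unusedVariables false
set_option linter.unusedSectionVars false

open scoped Manifold ContDiff ComplexConjugate Matrix ComplexOrder Topology
open MeasureTheory Set Filter Metric

noncomputable section

namespace Vale.Agent.P267.H306

open FL XT
open Vale.Agent.P267.H869 (mAt maxCS maxM Patch ng T1F T2F Af Af_eq Test)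
open Vale.Agent.P267.H181 (PCov DFrame ext0 ext1 ext2)

variable {M : Type} [TopologicalSpace M] [ChartedSpace C2 M] [IsManifold 𝓘(ℂ, C2) ω M]
variable {ι : Type} [Fintype ι] [DecidableEq ι]
variable {D : XTData M} {𝒰 : PCov D}

/-! ### transition matrices are uniformly bounded -/

theorem jacM_bound {C : ℝ} (hC : 0 < C) (hcmp : ∀ (i : Fin 𝒰.N) (k : ℤ),
    ∀ z ∈ closedBall (0 : C2) 3, ∀ (a : M → Fin 2 → ℂ),
      ‖loc1 0 (pch 𝒰 i k) a z‖ ≤ C * n1 D.h 0 a ((pch 𝒰 i k).symm z) ∧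
      n1 D.h 0 a ((pch 𝒰 i k).symm z) ≤ C * ‖loc1 0 (pch 𝒰 i k) a z‖)
    {i j : Fin 𝒰.N} {k l : ℤ} {x : M} (hx : x ∈ (pch 𝒰 i k).source)
    (hx3 : pch 𝒰 i k x ∈ closedBall (0 : C2) 3) (hy : x ∈ (pch 𝒰 j l).source)
    (hy3 : pch 𝒰 j l x ∈ closedBall (0 : C2) 3) (p q : Fin 2) :
    ‖jacM (pch 𝒰 i k) (pch 𝒰 j l) x p q‖ ≤ C * C := by
  set b : M → Fin 2 → ℂ := ext1 0 (pch 𝒰 j l) (fun _ => Pi.single p 1) with hb
  have h1 := H869.max_loc1_change (κ := 0) (pch_mem 𝒰 i k) (pch_mem 𝒰 j l) hx hy b q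
  have h2 : loc1 0 (pch 𝒰 j l) b (pch 𝒰 j l x) = Pi.single p 1 :=
    H869.max_loc1_ext1 (pch_mem 𝒰 j l) ((pch 𝒰 j l).map_source hy)
  rw [h2, zpow_zero, one_smul] at h1
  have h3 : ∑ p', conj (jacM (pch 𝒰 i k) (pch 𝒰 j l) x p' q) •
      (Pi.single p 1 : Fin 2 → ℂ) p' = conj (jacM (pch 𝒰 i k) (pch 𝒰 j l) x p q) := by
    rw [Finset.sum_eq_single p]
    · simp
    · intro b _ hb
      simp [Pi.single_eq_of_ne hb]
    · simp
  rw [h3] at h1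
  have h4 := (hcmp i k _ hx3 b).1
  have h5 := (hcmp j l _ hy3 b).2
  rw [(pch 𝒰 i k).left_inv hx] at h4
  rw [(pch 𝒰 j l).left_inv hy, h2] at h5
  have h6 : ‖(Pi.single p 1 : Fin 2 → ℂ)‖ = 1 := by
    rw [Pi.norm_single]; simp
  rw [h6, mul_one] at h5
  calc ‖jacM (pch 𝒰 i k) (pch 𝒰 j l) x p q‖
      = ‖conj (jacM (pch 𝒰 i k) (pch 𝒰 j l) x p q)‖ := (RCLike.norm_conj _).symm
    _ = ‖loc1 0 (pch 𝒰 i k) b (pch 𝒰 i k x) q‖ := by rw [h1]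
    _ ≤ ‖loc1 0 (pch 𝒰 i k) b (pch 𝒰 i k x)‖ := norm_le_pi_norm _ q
    _ ≤ C * n1 D.h 0 b x := h4
    _ ≤ C * C := mul_le_mul_of_nonneg_left h5 hC.le

/-! ### overlaps -/

/-- two polydiscs whose small parts meet at `x`: a ball of fixed size around `x` in the second one
lies in the first one -/
theorem exists_delta [T2Space M] (𝒰 : PCov D) : ∃ δ, 0 < δ ∧ δ ≤ 1 / 2 ∧
    ∀ (i j : Fin 𝒰.N) (k l : ℤ) (x : M), D.sh (-k) x ∈ 𝒰.Bc i (1 / 4) →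
      D.sh (-l) x ∈ 𝒰.Bc j (1 / 4) → ∀ z ∈ ball (pch 𝒰 j l x) δ,
        D.sh (-k) ((pch 𝒰 j l).symm z) ∈ 𝒰.B i (1 / 3) := by
  -- one type
  have key : ∀ (i j : Fin 𝒰.N) (d : ℤ), ∃ δ, 0 < δ ∧ ∀ x : M, D.sh (-d) x ∈ 𝒰.Bc i (1 / 4) →
      x ∈ 𝒰.Bc j (1 / 4) → ∀ z ∈ ball (ech 𝒰 j x) δ,
        D.sh (-d) ((ech 𝒰 j).symm z) ∈ 𝒰.B i (1 / 3) := by
    intro i j d
    set K : Set M := 𝒰.Bc j (1 / 4) ∩ D.sh (-d) ⁻¹' 𝒰.Bc i (1 / 4) with hK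
    have hKc : IsCompact K := (𝒰.isCompact_Bc j (by norm_num)).inter_right
      ((𝒰.isCompact_Bc i (by norm_num)).isClosed.preimage (D.continuous_sh _))
    have hKs : K ⊆ (ech 𝒰 j).source := fun x hx => by
      rw [ech_source]
      exact 𝒰.Bc_source j (by norm_num) hx.1
    have hKi : IsCompact (ech 𝒰 j '' K) :=
      hKc.image_of_continuousOn ((ech 𝒰 j).continuousOn.mono hKs)
    have hO : IsOpen ((ech 𝒰 j).target ∩ (ech 𝒰 j).symm ⁻¹' (D.sh (-d) ⁻¹' 𝒰.B i (1 / 3))) :=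
      (ech 𝒰 j).symm.isOpen_inter_preimage
        ((𝒰.isOpen_B i (by norm_num)).preimage (D.continuous_sh _))
    have hsub : ech 𝒰 j '' K ⊆
        (ech 𝒰 j).target ∩ (ech 𝒰 j).symm ⁻¹' (D.sh (-d) ⁻¹' 𝒰.B i (1 / 3)) := by
      rintro _ ⟨x, hx, rfl⟩
      refine ⟨(ech 𝒰 j).map_source (hKs hx), ?_⟩
      show D.sh (-d) ((ech 𝒰 j).symm (ech 𝒰 j x)) ∈ 𝒰.B i (1 / 3)
      rw [(ech 𝒰 j).left_inv (hKs hx)]
      exact 𝒰.Bc_sub_B i (by norm_num) hx.2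
    obtain ⟨δ, hδ, hth⟩ := hKi.exists_thickening_subset_open hO hsub
    refine ⟨δ, hδ, fun x hx1 hx2 z hz => ?_⟩
    have hz' : z ∈ thickening δ (ech 𝒰 j '' K) :=
      mem_thickening_iff.2 ⟨_, ⟨x, ⟨hx2, hx1⟩, rfl⟩, hz⟩
    exact (hth hz').2
  choose δ hδ h using key
  set S : Finset (Fin 𝒰.N × Fin 𝒰.N × ℤ) :=
    Finset.univ ×ˢ (Finset.univ ×ˢ Finset.Icc (-4) 4) with hS
  obtain ⟨ε, hε, hεS⟩ : ∃ ε > 0, ∀ p ∈ S, ε ≤ δ p.1 p.2.1 p.2.2 := by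
    classical
    induction S using Finset.induction_on with
    | empty => exact ⟨1, one_pos, fun p hp => absurd hp (Finset.notMem_empty p)⟩
    | insert p S _ ih =>
      obtain ⟨ε, hε, hεS⟩ := ih
      refine ⟨min ε (δ p.1 p.2.1 p.2.2), lt_min hε (hδ _ _ _), fun q hq => ?_⟩
      rcases Finset.mem_insert.1 hq with rfl | hq
      · exact min_le_right _ _
      · exact (min_le_left _ _).trans (hεS q hq)
  refine ⟨min ε (1 / 2), lt_min hε (by norm_num), min_le_right _ _,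
    fun i j k l x hx1 hx2 z hz => ?_⟩
  set y := D.sh (-l) x with hy
  have hx1' : D.sh (-(k - l)) y ∈ 𝒰.Bc i (1 / 4) := by
    rw [hy, ← D.sh_add]
    have : -(k - l) + -l = -k := by ring
    rw [this]; exact hx1
  have hf1 := 𝒰.abs_le (by norm_num) hx1
  have hf2 := 𝒰.abs_le (by norm_num) hx2
  have hkl : |k - l| ≤ 4 := by
    rw [_root_.abs_le] at hf1 hf2
    have : |((k : ℤ) : ℝ) - l| ≤ 4 := by
      rw [_root_.abs_le]; constructor <;> linarith [hf1.1, hf1.2, hf2.1, hf2.2]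
    exact_mod_cast this
  have hmem : (i, j, k - l) ∈ S := by
    rw [_root_.abs_le] at hkl
    simp only [hS, Finset.mem_product, Finset.mem_univ, true_and, Finset.mem_Icc]
    exact hkl
  have hz' : z ∈ ball (ech 𝒰 j y) (δ i j (k - l)) := by
    have h1 : pch 𝒰 j l x = ech 𝒰 j y := rfl
    rw [h1] at hz
    exact ball_subset_ball ((min_le_left _ _).trans (hεS _ hmem)) hz
  have h2 := h i j (k - l) y hx1' hx2 z hz'
  rw [pch_symm, ← D.sh_add]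
  have : -k + l = -(k - l) := by ring
  rw [this]
  exact h2

/-! ### the partition of unity -/

variable (𝒰)

/-- the partition of unity, indexed by `Fin N × ℤ` -/
def rhoP (p : Fin 𝒰.N × ℤ) (x : M) : ℂ := ((𝒰.rho p.1 (D.sh (-p.2) x) : ℝ) : ℂ)

variable {𝒰}

theorem rhoP_norm_le (p : Fin 𝒰.N × ℤ) (x : M) : ‖rhoP 𝒰 p x‖ ≤ 1 := by
  rw [rhoP, Complex.norm_real, Real.norm_eq_abs, abs_of_nonneg (𝒰.rho_nonneg _ _)]
  exact 𝒰.rho_le_one _ _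

theorem rhoP_eq_zero {p : Fin 𝒰.N × ℤ} {x : M} (h : D.sh (-p.2) x ∉ 𝒰.Bc p.1 (1 / 4)) :
    rhoP 𝒰 p x = 0 := by
  rw [rhoP, 𝒰.rho_eq_zero h]; simp

theorem rhoP_sh (p : Fin 𝒰.N × ℤ) (m : ℤ) (x : M) :
    rhoP 𝒰 (p.1, p.2 + m) (D.sh m x) = rhoP 𝒰 p x := by
  simp only [rhoP]
  rw [← D.sh_add]
  congr 4
  ring

variable [T2Space M]

theorem reg0_rhoP (p : Fin 𝒰.N × ℤ) : Reg0 ∞ 0 (rhoP 𝒰 p) :=
  (D.chartMap_sh (-p.2)).reg0_comp (𝒰.reg0_rho p.1)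

theorem tsupport_rhoP {p : Fin 𝒰.N × ℤ} {x : M} (h : x ∈ tsupport (rhoP 𝒰 p)) :
    D.sh (-p.2) x ∈ 𝒰.Bc p.1 (1 / 4) := by
  have hc : IsClosed (D.sh (-p.2) ⁻¹' 𝒰.Bc p.1 (1 / 4)) :=
    (𝒰.isCompact_Bc p.1 (by norm_num)).isClosed.preimage (D.continuous_sh _)
  refine closure_minimal (fun y hy => ?_) hc h
  by_contra hcon
  exact hy (rhoP_eq_zero hcon)

/-- the differentials of the partition of unity are uniformly bounded -/
theorem exists_dbar_rho (𝒰 : PCov D) : ∃ C, 0 ≤ C ∧ ∀ (p : Fin 𝒰.N × ℤ) (x : M),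
    n1 D.h 0 (dbar0 0 (rhoP 𝒰 p)) x ≤ C := by
  have h1 : ∀ i : Fin 𝒰.N, ∃ C, 0 ≤ C ∧ ∀ x,
      n1 D.h 0 (dbar0 0 fun y => ((𝒰.rho i y : ℝ) : ℂ)) x ≤ C := by
    intro i
    have hr : Reg1 ∞ 0 (dbar0 0 fun y => ((𝒰.rho i y : ℝ) : ℂ)) :=
      (𝒰.reg0_rho i).dbar infty_add_one_le
    have hcont := cn1 (D := D) hr
    have hsupp : HasCompactSupport (n1 D.h 0 (dbar0 0 fun y => ((𝒰.rho i y : ℝ) : ℂ))) := by
      refine (𝒰.hasCompactSupport_rho i).mono' fun x hx => ?_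
      by_contra hcon
      have h2 : 𝒰.rho i =ᶠ[𝓝 x] 0 := notMem_tsupport_iff_eventuallyEq.1 hcon
      have h3 : (fun y => ((𝒰.rho i y : ℝ) : ℂ)) =ᶠ[𝓝 x] fun _ => 0 := by
        filter_upwards [h2] with y hy
        rw [show 𝒰.rho i y = 0 from hy]; simp
      refine hx (n1_eq_zero 0 ?_)
      rw [FL.dbar0_congr h3, FL.dbar0_zero]
    obtain ⟨C, hC⟩ := hcont.bounded_above_of_compact_support hsupp
    exact ⟨max C 0, le_max_right _ _, fun x => (le_abs_self _).trans ((hC x).trans (le_max_left _ _))⟩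
  choose C hC h using h1
  refine ⟨∑ i, C i, Finset.sum_nonneg fun i _ => hC i, fun p x => ?_⟩
  have h2 : dbar0 0 (rhoP 𝒰 p) = fun x => dbar0 0 (fun y => ((𝒰.rho p.1 y : ℝ) : ℂ))
      (D.sh (-p.2) x) := by
    funext x
    exact (D.chartMap_sh (-p.2)).dbar0_comp 0 (fun y => ((𝒰.rho p.1 y : ℝ) : ℂ)) x
  rw [h2, D.n1_comp_sh]
  exact (h p.1 _).trans (Finset.single_le_sum (fun i _ => hC i) (Finset.mem_univ _))

end Vale.Agent.P267.H306
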