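import Vale.Agent.P267.H306.Pat2

/-!
# P267 / XA-T2 (helper306): bounds of the local representatives, `LocDat` at every point
-/

set_option linter.unusedVariables false
set_option linter.unusedSectionVars false

open scoped Manifold ContDiff ComplexConjugate Matrix ComplexOrder Topology
open MeasureTheory Set Filter Metric

noncomputable section

namespace Vale.Agent.P267.H306

open FL XT
open Vale.Agent.P267.H869 (mAt maxCS maxM Patch ng T1F T2F Af Af_eq Test cA cU cW cA_nonneg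
  cU_nonneg cW_nonneg)
open Vale.Agent.P267.H181 (PCov DFrame ext0 ext1 ext2)

variable {M : Type} [TopologicalSpace M] [ChartedSpace C2 M] [IsManifold 𝓘(ℂ, C2) ω M]
variable [T2Space M]
variable {ι : Type} [Fintype ι] [DecidableEq ι]
variable {D : XTData M} {𝒰 : PCov D}

section comp

variable {C : ℝ} {i : Fin 𝒰.N} {k : ℤ} {L : LB M ι} {a : M → Fin 2 → ℂ}
variable {s t : M → EuclideanSpace ℂ ι} (h : DFrame 𝒰 C i k L a s t)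

/-- components and norms -/
theorem norm_d2_le {C₂ : ℝ} (hC₂ : 0 < C₂) (hcmp : ∀ (i : Fin 𝒰.N) (k : ℤ),
    ∀ z ∈ closedBall (0 : C2) 3, ∀ (b : M → EuclideanSpace ℂ ι),
      ‖loc2 0 (pch 𝒰 i k) b z‖ ≤ C₂ * n2 D.h 0 b ((pch 𝒰 i k).symm z) ∧
      n2 D.h 0 b ((pch 𝒰 i k).symm z) ≤ C₂ * ‖loc2 0 (pch 𝒰 i k) b z‖)
    (hC : 1 ≤ C) (r : M → EuclideanSpace ℂ ι) {z : C2} (hz : z ∈ ball (0 : C2) 3) :
    ‖(mkPatch h).d2 r z‖ ≤ C₂ * n2 D.h 0 r ((pch 𝒰 i k).symm z) * C := by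
  have h1 : (mkPatch h).d2 r z = bp (loc2 0 (pch 𝒰 i k) r z) (t ((pch 𝒰 i k).symm z)) := by
    simp only [Patch.d2, loc2, mkPatch_e, mkPatch_t, bp_smul_left, smul_eq_mul]
  rw [h1]
  refine (norm_bp_le _ _).trans ?_
  have h2 := (hcmp i k z (ball_subset_closedBall hz) r).1
  have h3 := norm_t_le h (symm_dom h hz)
  exact mul_le_mul h2 h3 (norm_nonneg _) ((norm_nonneg _).trans h2)

theorem n1_le_d1 {C₁ : ℝ} (hC₁ : 0 < C₁) (hcmp : ∀ (i : Fin 𝒰.N) (k : ℤ),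
    ∀ z ∈ closedBall (0 : C2) 3, ∀ (b : M → Fin 2 → EuclideanSpace ℂ ι),
      ‖loc1 0 (pch 𝒰 i k) b z‖ ≤ C₁ * n1 D.h 0 b ((pch 𝒰 i k).symm z) ∧
      n1 D.h 0 b ((pch 𝒰 i k).symm z) ≤ C₁ * ‖loc1 0 (pch 𝒰 i k) b z‖)
    (hC : 1 ≤ C) {v : M → Fin 2 → EuclideanSpace ℂ ι} (hv : L.Sec1 v) {x : M}
    (hx : x ∈ (mkPatch h).dom 3) {V : ℝ} (hV : ‖(mkPatch h).d1 v (pch 𝒰 i k x)‖ ≤ V) :
    n1 D.h 0 v x ≤ C₁ * (V * C) := by
  have hxs : x ∈ (pch 𝒰 i k).source := hx.1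
  have h1 := (hcmp i k (pch 𝒰 i k x) (ball_subset_closedBall hx.2) v).2
  rw [(pch 𝒰 i k).left_inv hxs] at h1
  refine h1.trans (mul_le_mul_of_nonneg_left ?_ hC₁.le)
  have hV0 : 0 ≤ V := (norm_nonneg _).trans hV
  rw [pi_norm_le_iff_of_nonneg (mul_nonneg hV0 (zero_le_one.trans hC))]
  intro j
  have h2 : loc1 0 (pch 𝒰 i k) v (pch 𝒰 i k x) j =
      (mkPatch h).d1 v (pch 𝒰 i k x) j • s x := by
    have h3 : ∀ q, v x q = bp (v x q) (t x) • s x := fun q =>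
      (mkPatch h).eq_smul_s hx (hv x q)
    simp only [Patch.d1, loc1, mkPatch_e, mkPatch_t]
    rw [(pch 𝒰 i k).left_inv hxs, zpow_zero, one_smul, one_smul, Finset.sum_smul]
    refine Finset.sum_congr rfl fun q _ => ?_
    conv_lhs => rw [h3 q]
    rw [smul_assoc]
  rw [h2, norm_smul]
  exact mul_le_mul ((norm_le_pi_norm _ j).trans hV) (norm_s_le h hx) (norm_nonneg _) hV0

theorem norm_le_d0 (hC : 1 ≤ C) {u : M → EuclideanSpace ℂ ι} (hu : L.Sec u) {x : M}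
    (hx : x ∈ (mkPatch h).dom 3) {V : ℝ} (hV : ‖(mkPatch h).d0 u (pch 𝒰 i k x)‖ ≤ V) :
    ‖u x‖ ≤ V * C := by
  have hxs : x ∈ (pch 𝒰 i k).source := hx.1
  have h1 : (mkPatch h).d0 u (pch 𝒰 i k x) = bp (u x) (t x) := by
    simp only [Patch.d0, loc0, mkPatch_e, mkPatch_t, zpow_zero, one_smul]
    rw [(pch 𝒰 i k).left_inv hxs]
  rw [h1] at hV
  have h2 : u x = bp (u x) (t x) • s x := (mkPatch h).eq_smul_s hx (hu x)
  rw [h2, norm_smul]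
  exact mul_le_mul hV (norm_s_le h hx) (norm_nonneg _) ((norm_nonneg _).trans hV)

end comp

/-! ### the data -/

/-- all hypotheses on the bundle, the right hand side and the functional -/
structure Dat (𝒰 : PCov D) (C Λ K B : ℝ) (L : LB M ι) (a : M → Fin 2 → ℂ)
    (s t : Fin 𝒰.N → ℤ → M → EuclideanSpace ℂ ι) (w : ℤ → ℝ) (r : M → EuclideanSpace ℂ ι)
    (A : Test1 L.dual 1 →ₗ[ℂ] ℂ) : Prop where
  hC : 1 ≤ C
  hol : L.IsHol a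
  fr : ∀ i k, DFrame 𝒰 C i k L a (s i k) (t i k)
  wt : IsWt Λ w
  reg : Reg2 ∞ 0 r
  sec : L.Sec r
  B0 : 0 ≤ B
  rB : ∀ j, D.p2 0 r j ≤ B * w j
  K0 : 0 ≤ K
  bd : ∀ η : Test1 L.dual 1, ‖A η‖ ≤ K * B * ∑' j, w j * D.p1 1
    (η : M → Fin 2 → EuclideanSpace ℂ ι) j
  eq : ∀ (han : Reg1 ∞ 0 (ng a)) (φ : Test0 L.dual 1), A (D0 L.dual han 1 φ) = intX (pr r φ)

/-- uniform comparison constants -/
structure Cmp (𝒰 : PCov D) (C₁ : ℝ) (ι : Type) [Fintype ι] : Prop where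
  pos : 0 < C₁
  c11 : ∀ (i : Fin 𝒰.N) (k : ℤ), ∀ z ∈ closedBall (0 : C2) 3,
    ∀ (b : M → Fin 2 → EuclideanSpace ℂ ι),
      ‖loc1 1 (pch 𝒰 i k) b z‖ ≤ C₁ * n1 D.h 1 b ((pch 𝒰 i k).symm z) ∧
      n1 D.h 1 b ((pch 𝒰 i k).symm z) ≤ C₁ * ‖loc1 1 (pch 𝒰 i k) b z‖
  c01 : ∀ (i : Fin 𝒰.N) (k : ℤ), ∀ z ∈ closedBall (0 : C2) 3,
    ∀ (b : M → Fin 2 → EuclideanSpace ℂ ι),
      ‖loc1 0 (pch 𝒰 i k) b z‖ ≤ C₁ * n1 D.h 0 b ((pch 𝒰 i k).symm z) ∧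
      n1 D.h 0 b ((pch 𝒰 i k).symm z) ≤ C₁ * ‖loc1 0 (pch 𝒰 i k) b z‖
  c01' : ∀ (i : Fin 𝒰.N) (k : ℤ), ∀ z ∈ closedBall (0 : C2) 3, ∀ (b : M → Fin 2 → ℂ),
      ‖loc1 0 (pch 𝒰 i k) b z‖ ≤ C₁ * n1 D.h 0 b ((pch 𝒰 i k).symm z) ∧
      n1 D.h 0 b ((pch 𝒰 i k).symm z) ≤ C₁ * ‖loc1 0 (pch 𝒰 i k) b z‖
  c02 : ∀ (i : Fin 𝒰.N) (k : ℤ), ∀ z ∈ closedBall (0 : C2) 3, ∀ (b : M → EuclideanSpace ℂ ι),
      ‖loc2 0 (pch 𝒰 i k) b z‖ ≤ C₁ * n2 D.h 0 b ((pch 𝒰 i k).symm z) ∧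
      n2 D.h 0 b ((pch 𝒰 i k).symm z) ≤ C₁ * ‖loc2 0 (pch 𝒰 i k) b z‖
  rho : ∀ (p : Fin 𝒰.N × ℤ) (x : M), n1 D.h 0 (dbar0 0 (rhoP 𝒰 p)) x ≤ C₁

omit [T2Space M] in
theorem weaken {α : Type*} {f g : α → ℝ} {C C' : ℝ} (hf : ∀ x, 0 ≤ f x) (hg : ∀ x, 0 ≤ g x)
    (hCC : C ≤ C') (h : ∀ x, f x ≤ C * g x ∧ g x ≤ C * f x) (x : α) :
    f x ≤ C' * g x ∧ g x ≤ C' * f x :=
  ⟨(h x).1.trans (mul_le_mul_of_nonneg_right hCC (hg x)),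
    (h x).2.trans (mul_le_mul_of_nonneg_right hCC (hf x))⟩

theorem exists_cmp (𝒰 : PCov D) (ι : Type) [Fintype ι] : ∃ C₁, Cmp 𝒰 C₁ ι := by
  obtain ⟨A, hA, hA'⟩ := cmp1 𝒰 (V := EuclideanSpace ℂ ι) 1
  obtain ⟨B, hB, hB'⟩ := cmp1 𝒰 (V := EuclideanSpace ℂ ι) 0
  obtain ⟨E, hE, hE'⟩ := cmp1 𝒰 (V := ℂ) 0
  obtain ⟨F, hF, hF'⟩ := cmp2 𝒰 (V := EuclideanSpace ℂ ι) 0
  obtain ⟨G, hG, hG'⟩ := exists_dbar_rho 𝒰
  have hpd := D.herm.posDef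
  refine ⟨A + B + E + F + G, by positivity, fun i k z hz b => ?_, fun i k z hz b => ?_,
    fun i k z hz b => ?_, fun i k z hz b => ?_, fun p x => (hG' p x).trans (by linarith)⟩
  · have h1 := hA' i k z hz b
    have h2 := H378.n1_nonneg (hpd ((pch 𝒰 i k).symm z)) 1 b
    have h3 := norm_nonneg (loc1 1 (pch 𝒰 i k) b z)
    exact ⟨h1.1.trans (mul_le_mul_of_nonneg_right (by linarith) h2),
      h1.2.trans (mul_le_mul_of_nonneg_right (by linarith) h3)⟩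
  · have h1 := hB' i k z hz b
    have h2 := H378.n1_nonneg (hpd ((pch 𝒰 i k).symm z)) 0 b
    have h3 := norm_nonneg (loc1 0 (pch 𝒰 i k) b z)
    exact ⟨h1.1.trans (mul_le_mul_of_nonneg_right (by linarith) h2),
      h1.2.trans (mul_le_mul_of_nonneg_right (by linarith) h3)⟩
  · have h1 := hE' i k z hz b
    have h2 := H378.n1_nonneg (hpd ((pch 𝒰 i k).symm z)) 0 b
    have h3 := norm_nonneg (loc1 0 (pch 𝒰 i k) b z)
    exact ⟨h1.1.trans (mul_le_mul_of_nonneg_right (by linarith) h2),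
      h1.2.trans (mul_le_mul_of_nonneg_right (by linarith) h3)⟩
  · have h1 := hF' i k z hz b
    have h2 := H378.n2_nonneg (hpd ((pch 𝒰 i k).symm z)) 0 b
    have h3 := norm_nonneg (loc2 0 (pch 𝒰 i k) b z)
    exact ⟨h1.1.trans (mul_le_mul_of_nonneg_right (by linarith) h2),
      h1.2.trans (mul_le_mul_of_nonneg_right (by linarith) h3)⟩

/-! ### the local data -/

namespace Dat

variable {C Λ K B : ℝ} {L : LB M ι} {a : M → Fin 2 → ℂ}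
variable {s t : Fin 𝒰.N → ℤ → M → EuclideanSpace ℂ ι} {w : ℤ → ℝ} {r : M → EuclideanSpace ℂ ι}
variable {A : Test1 L.dual 1 →ₗ[ℂ] ℂ} (d : Dat 𝒰 C Λ K B L a s t w r A)

/-- the patches -/
def P (p : Fin 𝒰.N × ℤ) : Patch L a := mkPatch (d.fr p.1 p.2)

/-- the functionals of degree two -/
def U (p : Fin 𝒰.N × ℤ) (σ : M → EuclideanSpace ℂ ι) : ℂ := (d.P p).U A σ

/-- the size of the functional in a patch, divided by `w k` -/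
def W₀ (C₁ C Λ K B : ℝ) : ℝ := K * B * (7 * Real.exp (3 * |Λ|) * C₁ * C)

/-- the size of `r` in a patch, divided by `w k` -/
def R₀ (C₁ C Λ B : ℝ) : ℝ := C₁ * (B * Real.exp (3 * |Λ|)) * C

include d in
theorem W₀_nonneg {C₁ : ℝ} (hC₁ : 0 < C₁) : 0 ≤ W₀ C₁ C Λ K B := by
  have h1 := d.K0
  have h2 := d.B0
  have h3 := zero_le_one.trans d.hC
  have h4 := Real.exp_pos (3 * |Λ|)
  rw [W₀]
  positivity

include d in
theorem R₀_nonneg {C₁ : ℝ} (hC₁ : 0 < C₁) : 0 ≤ R₀ C₁ C Λ B := by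
  have h2 := d.B0
  have h3 := zero_le_one.trans d.hC
  have h4 := Real.exp_pos (3 * |Λ|)
  rw [R₀]
  positivity

theorem bdP {C₁ : ℝ} (hc : Cmp 𝒰 C₁ ι) (p : Fin 𝒰.N × ℤ) :
    (d.P p).Bd A (W₀ C₁ C Λ K B * w p.2) :=
  bd_patch hc.pos hc.c11 d.hC (d.fr p.1 p.2) A d.wt (mul_nonneg d.K0 d.B0) d.bd

theorem rP {C₁ : ℝ} (hc : Cmp 𝒰 C₁ ι) (p : Fin 𝒰.N × ℤ) {z : C2} (hz : z ∈ ball (0 : C2) 3) :
    ‖(d.P p).d2 r z‖ ≤ R₀ C₁ C Λ B * w p.2 := by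
  have h1 := norm_d2_le (d.fr p.1 p.2) hc.pos hc.c02 d.hC r hz
  refine h1.trans ?_
  set x := (pch 𝒰 p.1 p.2).symm z with hx
  have hxd := symm_dom (d.fr p.1 p.2) hz
  have hf := dom_f (d.fr p.1 p.2) hxd
  have hsl := D.mem_slab_floor x
  have h2 : n2 D.h 0 r x ≤ D.p2 0 r ⌊D.f x⌋ := D.le_prof (cn2 (d.reg.of_le (m := 0) (by simp))) hsl
  have hj : |⌊D.f x⌋ - p.2| ≤ 3 := by
    have h3 := Int.floor_le (D.f x)
    have h4 := Int.lt_floor_add_one (D.f x)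
    have h5 : |D.f x - p.2| ≤ 2 := hf
    rw [_root_.abs_le] at h5
    have : |((⌊D.f x⌋ : ℤ) : ℝ) - p.2| ≤ 3 := by
      rw [_root_.abs_le]; constructor <;> linarith [h5.1, h5.2]
    exact_mod_cast this
  have h6 := isWt_le_of_abs d.wt hj
  have h7 : n2 D.h 0 r x ≤ B * (Real.exp (3 * |Λ|) * w p.2) :=
    h2.trans ((d.rB _).trans (mul_le_mul_of_nonneg_left h6 d.B0))
  have h3 := zero_le_one.trans d.hC
  calc C₁ * n2 D.h 0 r x * C ≤ C₁ * (B * (Real.exp (3 * |Λ|) * w p.2)) * C :=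
        mul_le_mul_of_nonneg_right (mul_le_mul_of_nonneg_left h7 hc.pos.le) h3
    _ = _ := by rw [R₀]; ring

end Dat

end Vale.Agent.P267.H306
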