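import Vale.Agent.P267.H306.Pat3

/-!
# P267 / XA-T2 (helper306): `LocDat` at every point, the solution with bounds
-/

set_option linter.unusedVariables false
set_option linter.unusedSectionVars false

open scoped Manifold ContDiff ComplexConjugate Matrix ComplexOrder Topology
open MeasureTheory Set Filter Metric

noncomputable section

namespace Vale.Agent.P267.H306

open FL XT
open Vale.Agent.P267.H869 (mAt maxCS maxM Patch ng T1F T2F Af Af_eq Test cA cU cW cA_nonneg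
  cU_nonneg cW_nonneg)
open Vale.Agent.P267.H181 (PCov DFrame ext0 ext1 ext2 ks)

variable {M : Type} [TopologicalSpace M] [ChartedSpace C2 M] [IsManifold 𝓘(ℂ, C2) ω M]
variable [T2Space M] [SigmaCompactSpace M]
variable {ι : Type} [Fintype ι] [DecidableEq ι]
variable {D : XTData M} {𝒰 : PCov D}

namespace Dat

variable {C Λ K B : ℝ} {L : LB M ι} {a : M → Fin 2 → ℂ}
variable {s t : Fin 𝒰.N → ℤ → M → EuclideanSpace ℂ ι} {w : ℤ → ℝ} {r : M → EuclideanSpace ℂ ι}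
variable {A : Test1 L.dual 1 →ₗ[ℂ] ℂ} (d : Dat 𝒰 C Λ K B L a s t w r A)

/-- the local `(0,1)`-forms -/
theorem exists_al {C₁ : ℝ} (hc : Cmp 𝒰 C₁ ι) (p : Fin 𝒰.N × ℤ) :
    ∃ v : M → Fin 2 → EuclideanSpace ℂ ι,
      (∀ x ∈ (d.P p).dom (5 / 2), At1 ∞ 0 v x) ∧ L.Sec1 v ∧
      (∀ η, T1F L ((d.P p).dom (5 / 2)) η →
        Af A η = (d.P p).U A (L.dual.db1 (ng a) 1 η) + intX (H869.wdg v η)) ∧
      ∀ z ∈ closedBall (0 : C2) 2,
        ‖(d.P p).d1 v z‖ ≤ cA * (W₀ C₁ C Λ K B + R₀ C₁ C Λ B) * w p.2 := by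
  have han : Reg1 ∞ 0 (ng a) := reg1_neg d.hol.smooth
  obtain ⟨v, h1, h2, h3, h4, h5⟩ := (d.P p).exists_a A d.hol han
    (mul_nonneg (d.W₀_nonneg hc.pos) (d.wt.pos p.2).le) (d.bdP hc p) d.reg d.sec (d.eq han)
  refine ⟨v, h1, h2, h4, fun z hz => ?_⟩
  refine (h5 _ (fun z hz => d.rP hc p hz) z hz).trans (le_of_eq ?_)
  ring

/-- the local forms -/
def al {C₁ : ℝ} (hc : Cmp 𝒰 C₁ ι) (p : Fin 𝒰.N × ℤ) : M → Fin 2 → EuclideanSpace ℂ ι :=
  Classical.choose (d.exists_al hc p)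

theorem al_spec {C₁ : ℝ} (hc : Cmp 𝒰 C₁ ι) (p : Fin 𝒰.N × ℤ) :
      (∀ x ∈ (d.P p).dom (5 / 2), At1 ∞ 0 (d.al hc p) x) ∧ L.Sec1 (d.al hc p) ∧
      (∀ η, T1F L ((d.P p).dom (5 / 2)) η →
        Af A η = (d.P p).U A (L.dual.db1 (ng a) 1 η) + intX (H869.wdg (d.al hc p) η)) ∧
      ∀ z ∈ closedBall (0 : C2) 2,
        ‖(d.P p).d1 (d.al hc p) z‖ ≤ cA * (W₀ C₁ C Λ K B + R₀ C₁ C Λ B) * w p.2 :=
  Classical.choose_spec (d.exists_al hc p)

omit [SigmaCompactSpace M] in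
theorem U_zero (p : Fin 𝒰.N × ℤ) : d.U p (fun _ => 0) = 0 := by
  have h0 : T2F L ((d.P p).dom 3) (fun _ => 0) :=
    ⟨reg2_zero, sec_zero _, HasCompactSupport.zero, by
      have : (fun _ : M => (0 : EuclideanSpace ℂ ι)) = 0 := rfl
      rw [this, tsupport_zero]; exact empty_subset _⟩
  have h1 := (d.P p).U_smul A 0 h0
  simpa [U] using h1

/-- the constant in the bound of the comparison functions -/
def V₀ (δ : ℝ) (hδ : 0 < δ) (C₁ C Λ K B : ℝ) : ℝ :=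
  cW δ hδ * (cU * (4 * (C₁ * C₁ + C * C) ^ 5 + 1) * (Real.exp (3 * |Λ|) * W₀ C₁ C Λ K B) +
    (2 * (C₁ * C₁ + C * C) ^ 2 + 1) *
      (Real.exp (3 * |Λ|) * (cA * (W₀ C₁ C Λ K B + R₀ C₁ C Λ B)))) * C

/-- **(G2)** on the cover: the functions representing `U l - U p` -/
theorem exists_vp {C₁ : ℝ} (hc : Cmp 𝒰 C₁ ι) {δ : ℝ} (hδ : 0 < δ) (hδ2 : δ ≤ 1 / 2)
    (hdel : ∀ (i j : Fin 𝒰.N) (k l : ℤ) (x : M), D.sh (-k) x ∈ 𝒰.Bc i (1 / 4) →
      D.sh (-l) x ∈ 𝒰.Bc j (1 / 4) → ∀ z ∈ ball (pch 𝒰 j l x) δ,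
        D.sh (-k) ((pch 𝒰 j l).symm z) ∈ 𝒰.B i (1 / 3))
    {x : M} (p q : Fin 𝒰.N × ℤ) (hp : D.sh (-p.2) x ∈ 𝒰.Bc p.1 (1 / 4))
    (hq : D.sh (-q.2) x ∈ 𝒰.Bc q.1 (1 / 4)) {j : ℤ} (hj : x ∈ D.slab j) :
    ∃ u : M → EuclideanSpace ℂ ι,
      (∀ y ∈ (pch 𝒰 q.1 q.2).symm '' ball (pch 𝒰 q.1 q.2 x) (δ / 2), At0 ∞ 0 u y) ∧ L.Sec u ∧
      (∀ σ, T2on L.dual 1 ((pch 𝒰 q.1 q.2).symm '' ball (pch 𝒰 q.1 q.2 x) (δ / 2)) σ →
        d.U q σ - d.U p σ = intX (pr u σ)) ∧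
      (∀ i, L.db0 a 0 u x i = d.al hc q x i - d.al hc p x i) ∧
      ‖u x‖ ≤ V₀ δ hδ C₁ C Λ K B * w j := by
  have hpx := (mem_pch_closedBall 𝒰 (i := p.1) (k := p.2) (r := 3 / 2) (by norm_num)
    (x := x)).2 (by norm_num; norm_num at hp; exact hp)
  have hqx := (mem_pch_closedBall 𝒰 (i := q.1) (k := q.2) (r := 3 / 2) (by norm_num)
    (x := x)).2 (by norm_num; norm_num at hq; exact hq)
  set z₀ := pch 𝒰 q.1 q.2 x with hz₀
  have hw0 := d.wt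
  have hC0 : 0 ≤ C := zero_le_one.trans d.hC
  have hkj : ∀ p : Fin 𝒰.N × ℤ, D.sh (-p.2) x ∈ 𝒰.Bc p.1 (1 / 4) →
      w p.2 ≤ Real.exp (3 * |Λ|) * w j := fun p hp => by
    refine isWt_le_of_abs hw0 ?_
    have h1 := 𝒰.abs_le (by norm_num) hp
    obtain ⟨h2, h3⟩ := hj
    rw [_root_.abs_le] at h1
    have : |((p.2 : ℤ) : ℝ) - j| ≤ 3 := by
      rw [_root_.abs_le]; constructor <;> linarith [h1.1, h1.2]
    exact_mod_cast this
  have hW₀ := d.W₀_nonneg hc.pos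
  have hR₀ := d.R₀_nonneg hc.pos
  -- the ball around `z₀`
  have hball2 : ball z₀ δ ⊆ ball (0 : C2) 2 := by
    intro z hz
    have h1 : ‖z₀‖ ≤ 3 / 2 := by simpa using hqx.2
    rw [mem_ball, dist_eq_norm] at hz
    rw [mem_ball_zero_iff]
    have h2 : ‖z‖ ≤ ‖z - z₀‖ + ‖z₀‖ := by
      have := norm_add_le (z - z₀) z₀
      rwa [sub_add_cancel] at this
    linarith
  have hdq : ∀ y ∈ (pch 𝒰 q.1 q.2).symm '' ball z₀ δ, y ∈ (pch 𝒰 q.1 q.2).source ∧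
      pch 𝒰 q.1 q.2 y ∈ ball (0 : C2) 2 := by
    rintro _ ⟨z, hz, rfl⟩
    have hz' : z ∈ (pch 𝒰 q.1 q.2).target :=
      closedBall_sub_pch 𝒰 q.1 q.2 (r := 2) (by norm_num) (ball_subset_closedBall (hball2 hz))
    exact ⟨(pch 𝒰 q.1 q.2).map_target hz', by rw [(pch 𝒰 q.1 q.2).right_inv hz']; exact hball2 hz⟩
  have hdp : ∀ y ∈ (pch 𝒰 q.1 q.2).symm '' ball z₀ δ, y ∈ (pch 𝒰 p.1 p.2).source ∧
      pch 𝒰 p.1 p.2 y ∈ ball (0 : C2) 2 := by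
    rintro _ ⟨z, hz, rfl⟩
    have h1 := hdel p.1 q.1 p.2 q.2 x hp hq z hz
    refine (mem_pch_ball 𝒰 (r := 2) (by norm_num)).2 ?_
    norm_num; norm_num at h1; exact h1
  obtain ⟨p1, p2, p3, p4⟩ := d.al_spec hc p
  obtain ⟨q1, q2, q3, q4⟩ := d.al_spec hc q
  set V := cA * (W₀ C₁ C Λ K B + R₀ C₁ C Λ B) * (Real.exp (3 * |Λ|) * w j) with hV
  have hcA := cA_nonneg
  have hcU := cU_nonneg
  have hcW := cW_nonneg δ hδ
  have hVp : ∀ p : Fin 𝒰.N × ℤ, D.sh (-p.2) x ∈ 𝒰.Bc p.1 (1 / 4) →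
      cA * (W₀ C₁ C Λ K B + R₀ C₁ C Λ B) * w p.2 ≤ V := fun p hp =>
    mul_le_mul_of_nonneg_left (hkj p hp) (by positivity)
  set Bt := C₁ * C₁ + C * C with hBt
  have hC₁ := hc.pos
  have htr : (d.P p).TrB (d.P q) ((d.P q).e.symm '' ball z₀ δ) Bt := by
    refine ⟨fun y hy i' j' => ?_, fun y hy i' j' => ?_, fun y hy => ?_⟩
    · have h1 := hdq y hy
      have h2 := hdp y hy
      refine (jacM_bound hc.pos hc.c01' h2.1
        (ball_subset_closedBall (ball_subset_ball (by norm_num) h2.2)) h1.1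
        (ball_subset_closedBall (ball_subset_ball (by norm_num) h1.2)) i' j').trans ?_
      rw [hBt]; nlinarith
    · have h1 := hdq y hy
      have h2 := hdp y hy
      refine (jacM_bound hc.pos hc.c01' h1.1
        (ball_subset_closedBall (ball_subset_ball (by norm_num) h1.2)) h2.1
        (ball_subset_closedBall (ball_subset_ball (by norm_num) h2.2)) i' j').trans ?_
      rw [hBt]; nlinarith
    · have h1 := hdq y hy
      have h2 := hdp y hy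
      have h3 : ‖s p.1 p.2 y‖ ≤ C := norm_s_le (d.fr p.1 p.2)
        ⟨h2.1, ball_subset_ball (by norm_num) h2.2⟩
      have h4 : ‖t q.1 q.2 y‖ ≤ C := norm_t_le (d.fr q.1 q.2)
        ⟨h1.1, ball_subset_ball (by norm_num) h1.2⟩
      have h5 := norm_bp_le (s p.1 p.2 y) (t q.1 q.2 y)
      have h6 : ‖s p.1 p.2 y‖ * ‖t q.1 q.2 y‖ ≤ C * C := mul_le_mul h3 h4 (norm_nonneg _) hC0
      refine (h5.trans h6).trans ?_
      rw [hBt]; nlinarith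
  obtain ⟨u, u1, u2, u3, u4, u5⟩ := (d.P p).exists_v A d.hol (d.P q)
    (mul_nonneg hW₀ (hw0.pos p.2).le) (d.bdP hc p) (mul_nonneg hW₀ (hw0.pos q.2).le) (d.bdP hc q)
    p1 p2 p3 q1 q2 q3 (z₀ := z₀) hδ (by positivity : 0 ≤ Bt)
    (hball2.trans (ball_subset_ball (by norm_num)))
    (fun y hy => ⟨(hdp y hy).1, ball_subset_ball (by norm_num) (hdp y hy).2⟩) htr
    (V := V) (fun y hy => (p4 _ (ball_subset_closedBall (hdp y hy).2)).trans (hVp p hp))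
    (fun y hy => (q4 _ (ball_subset_closedBall (hdq y hy).2)).trans (hVp q hq))
  have hxs : x ∈ (pch 𝒰 q.1 q.2).source := hqx.1
  have hxm : x ∈ (pch 𝒰 q.1 q.2).symm '' ball z₀ (δ / 2) :=
    ⟨z₀, mem_ball_self (by linarith), (pch 𝒰 q.1 q.2).left_inv hxs⟩
  have hu0 := u1 x hxm
  refine ⟨fun y => -u y, fun y hy => (u1 y hy).neg, fun y => ?_, fun σ hσ => ?_, fun i => ?_, ?_⟩
  · have := u2 y
    rw [← actL_apply, map_neg, actL_apply, this]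
  · have h1 := u3 σ ⟨hσ.reg, hσ.sec, hσ.cpt, hσ.supp⟩
    have h2 : pr (fun y => -u y) σ = fun y => -pr u σ y := by
      funext y; simp only [pr, bp_neg_left]
    have h3 : Reg2 ∞ 1 (pr u σ) := reg2_pr_of u1 hσ.reg hσ.supp
    rw [h2, H533.intX_neg h3.locInt (compact_pr _ hσ.cpt), ← h1]
    simp only [U]
    ring
  · have h1 := u4 x hxm i
    have h2 : L.db0 a 0 (fun y => -u y) x i = -L.db0 a 0 u x i := by
      have h3 := LB.db0_const_smul (L := L) (a := a) (-1) (hu0.of_le (m := 1) (by simp))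
      have h4 : (fun y => (-1 : ℂ) • u y) = fun y => -u y := by funext y; simp
      rw [h4] at h3
      rw [h3]; simp
    rw [h2, h1]
    simp
  · rw [norm_neg]
    have h1 := u5 z₀ (mem_closedBall_self (by linarith))
    refine (norm_le_d0 (d.fr q.1 q.2) d.hC u2
      (⟨hqx.1, by
        have := hqx.2
        rw [mem_closedBall_zero_iff] at this
        rw [mkPatch_e]
        exact mem_ball_zero_iff.2 (by linarith)⟩) h1).trans ?_
    rw [V₀]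
    have e1 := hkj p hp
    have e2 := hkj q hq
    have e3 : 4 * Bt ^ 5 * (W₀ C₁ C Λ K B * w p.2) + W₀ C₁ C Λ K B * w q.2 ≤
        (4 * Bt ^ 5 + 1) * (Real.exp (3 * |Λ|) * W₀ C₁ C Λ K B) * w j := by
      have e4 := mul_le_mul_of_nonneg_left e1
        (by positivity : (0 : ℝ) ≤ 4 * Bt ^ 5 * W₀ C₁ C Λ K B)
      have e5 := mul_le_mul_of_nonneg_left e2 hW₀
      nlinarith
    have e6 : cU * (4 * Bt ^ 5 * (W₀ C₁ C Λ K B * w p.2) + W₀ C₁ C Λ K B * w q.2) +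
        (2 * Bt ^ 2 + 1) * V ≤
        (cU * (4 * Bt ^ 5 + 1) * (Real.exp (3 * |Λ|) * W₀ C₁ C Λ K B) +
    (2 * Bt ^ 2 + 1) *
      (Real.exp (3 * |Λ|) * (cA * (W₀ C₁ C Λ K B + R₀ C₁ C Λ B)))) * w j := by
      have e7 := mul_le_mul_of_nonneg_left e3 hcU
      rw [hV]
      nlinarith
    have e8 := mul_le_mul_of_nonneg_right (mul_le_mul_of_nonneg_left e6 hcW) hC0
    refine e8.trans (le_of_eq ?_)
    ring

end Dat

end Vale.Agent.P267.H306
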