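import Vale.Agent.P267.H306.Pat4

/-!
# P267 / XA-T2 (helper306): the solution with bounds
-/

set_option linter.unusedVariables false
set_option linter.unusedSectionVars false

open scoped Manifold ContDiff ComplexConjugate Matrix ComplexOrder Topology
open MeasureTheory Set Filter Metric

noncomputable section

namespace Vale.Agent.P267.H306

open FL XT
open Vale.Agent.P267.H869 (mAt maxCS maxM Patch ng T1F T2F Af Af_eq Test cA cU cW cA_nonneg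
  cU_nonneg cW_nonneg)
open Vale.Agent.P267.H181 (PCov DFrame ext0 ext1 ext2 ks)

variable {M : Type} [TopologicalSpace M] [ChartedSpace C2 M] [IsManifold 𝓘(ℂ, C2) ω M]
variable [T2Space M] [SigmaCompactSpace M]
variable {ι : Type} [Fintype ι] [DecidableEq ι]
variable {D : XTData M} {𝒰 : PCov D}

omit [IsManifold 𝓘(ℂ, C2) ω M] [T2Space M] [SigmaCompactSpace M] in
theorem n1_pt {V : Type*} [NormedAddCommGroup V] [InnerProductSpace ℂ V] {κ : ℤ}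
    {b b' : M → Fin 2 → V} {x : M} (h : b x = b' x) : n1 D.h κ b x = n1 D.h κ b' x := by
  simp only [n1, nsq1, h]

namespace Dat

variable {C Λ K B : ℝ} {L : LB M ι} {a : M → Fin 2 → ℂ}
variable {s t : Fin 𝒰.N → ℤ → M → EuclideanSpace ℂ ι} {w : ℤ → ℝ} {r : M → EuclideanSpace ℂ ι}
variable {A : Test1 L.dual 1 →ₗ[ℂ] ℂ} (d : Dat 𝒰 C Λ K B L a s t w r A)

theorem exists_locDat {C₁ : ℝ} (hc : Cmp 𝒰 C₁ ι) {δ : ℝ} (hδ : 0 < δ) (hδ2 : δ ≤ 1 / 2)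
    (hdel : ∀ (i j : Fin 𝒰.N) (k l : ℤ) (x : M), D.sh (-k) x ∈ 𝒰.Bc i (1 / 4) →
      D.sh (-l) x ∈ 𝒰.Bc j (1 / 4) → ∀ z ∈ ball (pch 𝒰 j l x) δ,
        D.sh (-k) ((pch 𝒰 j l).symm z) ∈ 𝒰.B i (1 / 3))
    {x : M} {j : ℤ} (hj : x ∈ D.slab j) :
    ∃ (q : Fin 𝒰.N × ℤ) (F : Finset (Fin 𝒰.N × ℤ)) (N : Set M)
      (v : Fin 𝒰.N × ℤ → M → EuclideanSpace ℂ ι),
      LocDat L a (Af A) (rhoP 𝒰) d.U (d.al hc) x q F N v ∧
      (∀ p ∈ F, D.sh (-p.2) x ∈ 𝒰.Bc p.1 (1 / 4)) ∧ F.card ≤ 𝒰.N * 7 ∧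
      ∀ p ∈ F, ‖v p x‖ ≤ V₀ δ hδ C₁ C Λ K B * w j := by
  classical
  -- a polydisc containing `x`
  obtain ⟨i₀, k₀, hx₀⟩ := 𝒰.cover x
  have hq : D.sh (-k₀) x ∈ 𝒰.Bc i₀ (1 / 4) := by
    refine 𝒰.Bc_mono i₀ (s := 1 / 8) (by norm_num) (𝒰.B_sub i₀ _ ?_)
    obtain ⟨z, hz, hzx⟩ := hx₀
    refine ⟨z, ?_, hzx⟩
    have : (1 / 8 : ℝ) * 𝒰.R i₀ = 𝒰.R i₀ / 8 := by ring
    rw [this]
    exact hz
  set q : Fin 𝒰.N × ℤ := (i₀, k₀) with hqd
  set S : Finset (Fin 𝒰.N × ℤ) := Finset.univ ×ˢ ks D x with hS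
  set F : Finset (Fin 𝒰.N × ℤ) := S.filter fun p => x ∈ tsupport (rhoP 𝒰 p) with hF
  have hFB : ∀ p ∈ F, D.sh (-p.2) x ∈ 𝒰.Bc p.1 (1 / 4) := fun p hp =>
    tsupport_rhoP (Finset.mem_filter.1 hp).2
  have hv := fun p (hp : p ∈ F) => d.exists_vp hc hδ hδ2 hdel p q (hFB p hp) hq hj
  choose! v v1 v2 v3 v4 v5 using hv
  -- the neighbourhood
  set O : Set M := (pch 𝒰 q.1 q.2).symm '' ball (pch 𝒰 q.1 q.2 x) (δ / 2) with hO
  have hqx := (mem_pch_closedBall 𝒰 (i := q.1) (k := q.2) (r := 3 / 2) (by norm_num)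
    (x := x)).2 (by norm_num; norm_num at hq; exact hq)
  have hball : ball (pch 𝒰 q.1 q.2 x) (δ / 2) ⊆ ball (0 : C2) 2 := by
    intro z hz
    have h1 : ‖pch 𝒰 q.1 q.2 x‖ ≤ 3 / 2 := by simpa using hqx.2
    rw [mem_ball, dist_eq_norm] at hz
    rw [mem_ball_zero_iff]
    have h2 : ‖z‖ ≤ ‖z - pch 𝒰 q.1 q.2 x‖ + ‖pch 𝒰 q.1 q.2 x‖ := by
      have := norm_add_le (z - pch 𝒰 q.1 q.2 x) (pch 𝒰 q.1 q.2 x)
      rwa [sub_add_cancel] at this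
    linarith
  have htgt : ball (pch 𝒰 q.1 q.2 x) (δ / 2) ⊆ (pch 𝒰 q.1 q.2).target :=
    hball.trans (ball_subset_closedBall.trans (closedBall_sub_pch 𝒰 q.1 q.2 (by norm_num)))
  have hOo : IsOpen O := (pch 𝒰 q.1 q.2).isOpen_image_symm_of_subset_target isOpen_ball htgt
  have hxO : x ∈ O := ⟨_, mem_ball_self (by linarith), (pch 𝒰 q.1 q.2).left_inv hqx.1⟩
  have hOd : ∀ y ∈ O, y ∈ (d.P q).dom (5 / 2) := by
    rintro _ ⟨z, hz, rfl⟩
    refine ⟨(pch 𝒰 q.1 q.2).map_target (htgt hz), ?_⟩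
    show (pch 𝒰 q.1 q.2) ((pch 𝒰 q.1 q.2).symm z) ∈ ball (0 : C2) (5 / 2)
    rw [(pch 𝒰 q.1 q.2).right_inv (htgt hz)]
    exact ball_subset_ball (by norm_num) (hball hz)
  have hnd : ∀ᶠ y in 𝓝 x, ∀ p ∈ S, p ∉ F → y ∉ tsupport (rhoP 𝒰 p) := by
    rw [Filter.eventually_all_finset]
    intro p hp
    by_cases hpF : p ∈ F
    · exact Filter.Eventually.of_forall fun y h => absurd hpF h
    · have hxp : x ∉ tsupport (rhoP 𝒰 p) := fun h => hpF (Finset.mem_filter.2 ⟨hp, h⟩)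
      filter_upwards [(isClosed_tsupport (rhoP 𝒰 p)).isOpen_compl.mem_nhds hxp] with y hy _
      exact hy
  obtain ⟨N₁, hN₁, hN₁o, hxN₁⟩ := eventually_nhds_iff.1
    (hnd.and (PCov.eventually_f D x))
  set N : Set M := O ∩ N₁ with hN
  have hNO : N ⊆ O := inter_subset_left
  have hNd : ∀ y ∈ N, y ∈ (d.P q).dom (5 / 2) := fun y hy => hOd y hy.1
  have hNd3 : N ⊆ (d.P q).dom 3 := fun y hy => (d.P q).dom_mono (by norm_num) (hNd y hy)
  have hoff : ∀ p ∉ F, ∀ y ∈ N, rhoP 𝒰 p y = 0 := by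
    intro p hp y hy
    obtain ⟨h1, h2⟩ := hN₁ y hy.2
    by_cases hpS : p ∈ S
    · exact image_eq_zero_of_notMem_tsupport (h1 p hpS hp)
    · refine rhoP_eq_zero fun h3 => hpS ?_
      rw [hS, Finset.mem_product]
      exact ⟨Finset.mem_univ _, 𝒰.mem_ks h2 (by norm_num) h3⟩
  obtain ⟨a1, a2, a3, a4⟩ := d.al_spec hc q
  refine ⟨q, F, N, v, ⟨hOo.inter hN₁o, ⟨hxO, hxN₁⟩, hoff, ?_, ⟨d.U_zero q, ?_⟩, ?_, ?_, ?_, ?_, ?_,
    ?_, v4⟩, hFB, ?_, v5⟩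
  · intro y hy
    obtain ⟨h1, h2⟩ := hN₁ y hy.2
    have h3 := 𝒰.sum_rho h2
    have h4 : ∑ p ∈ S, rhoP 𝒰 p y = 1 := by
      rw [hS, Finset.sum_product]
      simp only [rhoP]
      rw [← Complex.ofReal_one, ← h3]
      push_cast
      rfl
    rw [← h4]
    exact Finset.sum_subset (Finset.filter_subset _ _) fun p _ hp => hoff p hp y hy
  · intro σ σ' hσ hσ'
    exact (d.P q).U_add A ⟨hσ.reg, hσ.sec, hσ.cpt, hσ.supp.trans hNd3⟩
      ⟨hσ'.reg, hσ'.sec, hσ'.cpt, hσ'.supp.trans hNd3⟩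
  · intro η hη
    exact a3 η ⟨hη.reg, hη.sec, hη.cpt, fun y hy => hNd y (hη.supp hy)⟩
  · exact fun y hy => a1 y (hNd y hy)
  · exact fun y hy i => a2 y i
  · exact fun p hp y hy => v1 p hp y (hNO hy)
  · exact fun p hp y hy => v2 p hp y
  · exact fun p hp σ hσ => v3 p hp σ (hσ.mono hNO)
  · -- cardinality
    have hsub : F ⊆ Finset.univ ×ˢ Finset.Icc (j - 3) (j + 3) := by
      intro p hp
      have h1 := 𝒰.abs_le (by norm_num) (hFB p hp)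
      rw [_root_.abs_le] at h1
      rw [Finset.mem_product, Finset.mem_Icc]
      have h2 : |((p.2 : ℤ) : ℝ) - j| ≤ 3 := by
        rw [_root_.abs_le]; constructor <;> linarith [h1.1, h1.2, hj.1, hj.2]
      have h3 : |p.2 - j| ≤ 3 := by exact_mod_cast h2
      rw [_root_.abs_le] at h3
      exact ⟨Finset.mem_univ _, by linarith [h3.1], by linarith [h3.2]⟩
    refine (Finset.card_le_card hsub).trans ?_
    rw [Finset.card_product, Finset.card_univ, Fintype.card_fin, Int.card_Icc]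
    apply le_of_eq
    congr 1
    have : j + 3 + 1 - (j - 3) = 7 := by ring
    rw [this]; rfl

/-- the constant of the final estimate -/
def X₀ (N : ℕ) (δ : ℝ) (hδ : 0 < δ) (C₁ C Λ K B : ℝ) : ℝ :=
  (N * 7 : ℕ) * (C₁ * (cA * (W₀ C₁ C Λ K B + R₀ C₁ C Λ B) * Real.exp (3 * |Λ|) * C) +
    C₁ * V₀ δ hδ C₁ C Λ K B)

theorem V₀_nonneg {C₁ : ℝ} (hC₁ : 0 < C₁) {δ : ℝ} (hδ : 0 < δ) (h : Dat 𝒰 C Λ K B L a s t w r A) :
    0 ≤ V₀ δ hδ C₁ C Λ K B := by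
  have h1 := h.W₀_nonneg hC₁
  have h2 := h.R₀_nonneg hC₁
  have h3 := cA_nonneg
  have h4 := cU_nonneg
  have h5 := cW_nonneg δ hδ
  have h6 := zero_le_one.trans h.hC
  have h7 := Real.exp_pos (3 * |Λ|)
  rw [V₀]
  positivity

/-- the functional which is represented by the solution -/
def Bt {C₁ : ℝ} (hc : Cmp 𝒰 C₁ ι) : (M → Fin 2 → EuclideanSpace ℂ ι) → ℂ :=
  Bf L a (Af A) (rhoP 𝒰) d.U

/-- **solution of `∂̄v = r` with bounds** -/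
theorem exists_solution {C₁ : ℝ} (hc : Cmp 𝒰 C₁ ι) {δ : ℝ} (hδ : 0 < δ) (hδ2 : δ ≤ 1 / 2)
    (hdel : ∀ (i j : Fin 𝒰.N) (k l : ℤ) (x : M), D.sh (-k) x ∈ 𝒰.Bc i (1 / 4) →
      D.sh (-l) x ∈ 𝒰.Bc j (1 / 4) → ∀ z ∈ ball (pch 𝒰 j l x) δ,
        D.sh (-k) ((pch 𝒰 j l).symm z) ∈ 𝒰.B i (1 / 3)) :
    ∃ v : M → Fin 2 → EuclideanSpace ℂ ι, Reg1 ∞ 0 v ∧ L.Sec1 v ∧
      (∀ x, L.db1 a 0 v x = r x) ∧ (∀ j, D.p1 0 v j ≤ X₀ 𝒰.N δ hδ C₁ C Λ K B * w j) ∧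
      ∀ x, RepAt L (Bf L a (Af A) (rhoP 𝒰) d.U) x v := by
  classical
  have ha := d.hol.smooth
  have hpd := D.herm.posDef
  have hC0 : 0 ≤ C := zero_le_one.trans d.hC
  have hW₀ := d.W₀_nonneg hc.pos
  have hR₀ := d.R₀_nonneg hc.pos
  have hcA := cA_nonneg
  have hV₀ := V₀_nonneg hc.pos hδ d
  have hC₁ := hc.pos
  have key : ∀ x, ∃ v, RepAt L (Bf L a (Af A) (rhoP 𝒰) d.U) x v ∧
      ∀ j, x ∈ D.slab j → n1 D.h 0 (fun _ => v x) x ≤ X₀ 𝒰.N δ hδ C₁ C Λ K B * w j := by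
    intro x
    -- the bound for one `j` with one `v`; the form does not depend on `j` by uniqueness
    obtain ⟨q, F, N, v, hL, hFB, hcard, hvb⟩ := d.exists_locDat hc hδ hδ2 hdel
      (D.mem_slab_floor x)
    refine ⟨_, hL.repAt ha reg0_rhoP d.U_zero, fun j hj => ?_⟩
    obtain ⟨q', F', N', v', hL', hFB', hcard', hvb'⟩ := d.exists_locDat hc hδ hδ2 hdel hj
    have huni := ((hL.repAt ha reg0_rhoP d.U_zero).unique
      (hL'.repAt ha reg0_rhoP d.U_zero)).eq_of_nhds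
    have h1 : (d.al hc q x - L.db0 a 0 (fun z => ∑ p ∈ F, rhoP 𝒰 p z • v p z) x) =
        fun i => ∑ p ∈ F', (rhoP 𝒰 p x • d.al hc p x i -
          dbar0 0 (rhoP 𝒰 p) x i • v' p x) := by
      funext i
      have h2 := congrFun huni i
      rw [← hL'.value reg0_rhoP ha i]
      exact h2
    have h3 : n1 D.h 0 (fun _ => (fun y => d.al hc q y -
        L.db0 a 0 (fun z => ∑ p ∈ F, rhoP 𝒰 p z • v p z) y) x) x =
        n1 D.h 0 (fun (y : M) => fun i => ∑ p ∈ F', (rhoP 𝒰 p y • d.al hc p y i -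
          dbar0 0 (rhoP 𝒰 p) y i • v' p y)) x := n1_pt (D := D) h1
    rw [h3]
    refine (H87.n1_sum_le hpd 0 F' (fun p y i => rhoP 𝒰 p y • d.al hc p y i -
          dbar0 0 (rhoP 𝒰 p) y i • v' p y) x).trans ?_
    have hw := d.wt
    have h4 : ∀ p ∈ F', n1 D.h 0 (fun y i => rhoP 𝒰 p y • d.al hc p y i -
          dbar0 0 (rhoP 𝒰 p) y i • v' p y) x ≤
        (C₁ * (cA * (W₀ C₁ C Λ K B + R₀ C₁ C Λ B) * Real.exp (3 * |Λ|) * C) +
          C₁ * V₀ δ hδ C₁ C Λ K B) * w j := by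
      intro p hp
      refine (H87.n1_sub_le hpd 0 _ _ x).trans ?_
      have hpB := hFB' p hp
      have hpx := (mem_pch_closedBall 𝒰 (i := p.1) (k := p.2) (r := 3 / 2) (by norm_num)
        (x := x)).2 (by norm_num; norm_num at hpB; exact hpB)
      have hp32 : ‖pch 𝒰 p.1 p.2 x‖ ≤ 3 / 2 := by simpa using hpx.2
      have hpd3 : x ∈ (mkPatch (d.fr p.1 p.2)).dom 3 := ⟨hpx.1, by
        rw [mkPatch_e]
        exact mem_ball_zero_iff.2 (by linarith)⟩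
      obtain ⟨a1, a2, a3, a4⟩ := d.al_spec hc p
      have h5 : n1 D.h 0 (d.al hc p) x ≤
          C₁ * ((cA * (W₀ C₁ C Λ K B + R₀ C₁ C Λ B) * w p.2) * C) :=
        n1_le_d1 (d.fr p.1 p.2) hc.pos hc.c01 d.hC a2 hpd3
          (a4 _ (mem_closedBall_zero_iff.2 (by linarith)))
      have h6 : w p.2 ≤ Real.exp (3 * |Λ|) * w j := by
        refine isWt_le_of_abs hw ?_
        have h1 := 𝒰.abs_le (by norm_num) hpB
        obtain ⟨h2, h3⟩ := hj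
        rw [_root_.abs_le] at h1
        have : |((p.2 : ℤ) : ℝ) - j| ≤ 3 := by
          rw [_root_.abs_le]; constructor <;> linarith [h1.1, h1.2]
        exact_mod_cast this
      have h7 : n1 D.h 0 (fun y i => rhoP 𝒰 p y • d.al hc p y i) x ≤
          C₁ * (cA * (W₀ C₁ C Λ K B + R₀ C₁ C Λ B) * Real.exp (3 * |Λ|) * C) * w j := by
        rw [H87.n1_smul hpd]
        calc ‖rhoP 𝒰 p x‖ * n1 D.h 0 (d.al hc p) x ≤ 1 * n1 D.h 0 (d.al hc p) x :=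
              mul_le_mul_of_nonneg_right (rhoP_norm_le p x) (H87.n1_nonneg hpd 0 _ x)
          _ ≤ C₁ * ((cA * (W₀ C₁ C Λ K B + R₀ C₁ C Λ B) * w p.2) * C) := by rw [one_mul]; exact h5
          _ ≤ C₁ * ((cA * (W₀ C₁ C Λ K B + R₀ C₁ C Λ B) * (Real.exp (3 * |Λ|) * w j)) * C) := by
              gcongr
          _ = _ := by ring
      have h8 : n1 D.h 0 (fun y i => dbar0 0 (rhoP 𝒰 p) y i • v' p y) x ≤
          C₁ * V₀ δ hδ C₁ C Λ K B * w j := by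
        rw [H87.n1_form_smul hpd, H87.n0_zero_eq]
        have h9 := hc.rho p x
        have h10 := hvb' p hp
        calc _ ≤ C₁ * (V₀ δ hδ C₁ C Λ K B * w j) :=
              mul_le_mul h9 h10 (norm_nonneg _) hc.pos.le
          _ = _ := by ring
      rw [add_mul]
      exact add_le_add h7 h8
    refine (Finset.sum_le_card_nsmul _ _ _ h4).trans ?_
    rw [nsmul_eq_mul, X₀]
    have hwj := (hw.pos j).le
    have hcd : (F'.card : ℝ) ≤ ((𝒰.N * 7 : ℕ) : ℝ) := by exact_mod_cast hcard'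
    calc (F'.card : ℝ) * ((C₁ * (cA * (W₀ C₁ C Λ K B + R₀ C₁ C Λ B) * Real.exp (3 * |Λ|) * C) +
          C₁ * V₀ δ hδ C₁ C Λ K B) * w j) ≤ ((𝒰.N * 7 : ℕ) : ℝ) *
          ((C₁ * (cA * (W₀ C₁ C Λ K B + R₀ C₁ C Λ B) * Real.exp (3 * |Λ|) * C) +
          C₁ * V₀ δ hδ C₁ C Λ K B) * w j) := mul_le_mul_of_nonneg_right hcd (by positivity)
      _ = _ := by ring
  obtain ⟨v, hv, hvQ⟩ := exists_global (L := L) (Q := fun x vx => ∀ j, x ∈ D.slab j →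
    n1 D.h 0 (fun _ => vx) x ≤ X₀ 𝒰.N δ hδ C₁ C Λ K B * w j) key
  refine ⟨v, reg1_iff_at.2 fun x => (hv x).at1, fun x i => (hv x).sec i, fun x => ?_, fun j => ?_,
    hv⟩
  · refine (hv x).db1_eq ha d.reg d.sec (fun φ hφ => ?_)
    have hna : Reg1 ∞ 0 (-a) := reg1_neg ha
    have h1 : ∀ y, L.dual.db1 (-a) 1 (L.dual.db0 (-a) 1 φ) y = 0 := fun y =>
      LB.db1_db0_eq_zero (L := L.dual) (isHol_dual d.hol) (Eventually.of_forall fun z => hφ.sec z)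
        ((hφ.reg.at y).of_le H181.two_le_infty)
    have h2 : ∑ᶠ p, d.U p (fun x => rhoP 𝒰 p x • L.dual.db1 (-a) 1 (L.dual.db0 (-a) 1 φ) x) = 0 := by
      have : ∀ p, d.U p (fun x => rhoP 𝒰 p x • L.dual.db1 (-a) 1 (L.dual.db0 (-a) 1 φ) x) = 0 := by
        intro p
        rw [show (fun x => rhoP 𝒰 p x • L.dual.db1 (-a) 1 (L.dual.db0 (-a) 1 φ) x) =
          fun _ => 0 from funext fun x => by rw [h1 x, smul_zero]]
        exact d.U_zero p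
      simp only [this, finsum_zero]
    rw [Bf, h2, sub_zero]
    have h3 := (hφ.db0 hna).test
    rw [Af_eq A h3]
    exact d.eq hna ⟨φ, hφ.test⟩
  · refine D.prof_le ?_ fun x hx => hvQ x j hx
    have := (d.wt.pos j).le
    rw [X₀]
    positivity

end Dat

end Vale.Agent.P267.H306
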