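import Vale.Agent.P267.H306.Pat5

/-!
# P267 / XA-T2 (helper306): equivariance of the solution
-/

set_option linter.unusedVariables false
set_option linter.unusedSectionVars false

open scoped Manifold ContDiff ComplexConjugate Matrix ComplexOrder Topology
open MeasureTheory Set Filter Metric

noncomputable section

namespace Vale.Agent.P267.H306

open FL XT
open Vale.Agent.P267.H869 (mAt maxCS maxM Patch ng T1F T2F Af Af_eq Test cA cU cW cA_nonneg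
  cU_nonneg cW_nonneg)
open Vale.Agent.P267.H181 (PCov DFrame ext0 ext1 ext2 ks)

variable {M : Type} [TopologicalSpace M] [ChartedSpace C2 M] [IsManifold 𝓘(ℂ, C2) ω M]
variable [T2Space M]
variable {ι : Type} [Fintype ι] [DecidableEq ι]
variable {D : XTData M} {𝒰 : PCov D}

theorem pch_sh (i : Fin 𝒰.N) (k m : ℤ) (x : M) :
    pch 𝒰 i (k + m) (D.sh m x) = pch 𝒰 i k x := by
  simp only [pch, trC_apply]
  rw [← D.sh_add]
  congr 2
  ring

theorem pch_source_sh (i : Fin 𝒰.N) (k m : ℤ) (x : M) :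
    D.sh m x ∈ (pch 𝒰 i (k + m)).source ↔ x ∈ (pch 𝒰 i k).source := by
  simp only [pch, trC_source]
  rw [← D.sh_add]
  have : -(k + m) + m = -k := by ring
  rw [this]

theorem jac_pch_sh (i : Fin 𝒰.N) (k m : ℤ) {x : M} (hx : x ∈ (pch 𝒰 i k).source) :
    jac (pch 𝒰 i (k + m)) (D.sh m x) = jac (pch 𝒰 i k) x := by
  have hy : D.sh (-k) x ∈ (ech 𝒰 i).source := by rwa [pch, trC_source] at hx
  have h1 := jac_trC (D := D) k hy
  have h2 := jac_trC (D := D) (k + m) hy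
  rw [D.sh_sh_neg] at h1
  have h3 : D.sh (k + m) (D.sh (-k) x) = D.sh m x := by
    rw [← D.sh_add]
    congr 1
    ring
  rw [h3] at h2
  rw [pch, pch, h1, h2]

theorem ext1_pch_sh (i : Fin 𝒰.N) (k m : ℤ) (g : C2 → Fin 2 → ℂ) (x : M) :
    ext1 1 (pch 𝒰 i (k + m)) g (D.sh m x) = ext1 1 (pch 𝒰 i k) g x := by
  by_cases hx : x ∈ (pch 𝒰 i k).source
  · have hx' := (pch_source_sh (𝒰 := 𝒰) i k m x).2 hx
    funext j
    simp only [ext1, if_pos hx, if_pos hx', pch_sh, jac_pch_sh i k m hx]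
  · have hx' : D.sh m x ∉ (pch 𝒰 i (k + m)).source := fun h =>
      hx ((pch_source_sh (𝒰 := 𝒰) i k m x).1 h)
    rw [H181.ext1_not_source hx, H181.ext1_not_source hx']

theorem loc2_pch_sh (κ : ℤ) (i : Fin 𝒰.N) (k m : ℤ) {z : C2} (hz : z ∈ (ech 𝒰 i).target)
    (u : M → ℂ) : loc2 κ (pch 𝒰 i (k + m)) u z = loc2 κ (pch 𝒰 i k) (fun x => u (D.sh m x)) z := by
  rw [loc2_pch 𝒰 κ i (k + m) hz, loc2_pch 𝒰 κ i k hz]
  congr 1
  funext x
  rw [← D.sh_add]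
  congr 2
  ring

namespace Dat

variable {C Λ K B : ℝ} {L : LB M ι} {a : M → Fin 2 → ℂ}
variable {s t : Fin 𝒰.N → ℤ → M → EuclideanSpace ℂ ι} {w : ℤ → ℝ} {r : M → EuclideanSpace ℂ ι}
variable {A : Test1 L.dual 1 →ₗ[ℂ] ℂ} (d : Dat 𝒰 C Λ K B L a s t w r A)

theorem J1_sh {m : ℤ} (ht : ∀ i k x, t i (k + m) (D.sh m x) = t i k x) (p : Fin 𝒰.N × ℤ)
    (g : C2 → Fin 2 → ℂ) (x : M) :
    (d.P (p.1, p.2 + m)).J1 g (D.sh m x) = (d.P p).J1 g x := by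
  funext j
  have h1 := congrFun (ext1_pch_sh (𝒰 := 𝒰) p.1 p.2 m g x) j
  show ext1 1 (pch 𝒰 p.1 (p.2 + m)) g (D.sh m x) j • t p.1 (p.2 + m) (D.sh m x) =
    ext1 1 (pch 𝒰 p.1 p.2) g x j • t p.1 p.2 x
  rw [h1, ht]

theorem c2_sh {m : ℤ} (hs : ∀ i k x, s i (k + m) (D.sh m x) = s i k x) (p : Fin 𝒰.N × ℤ)
    (σ : M → EuclideanSpace ℂ ι) :
    (d.P p).c2 (fun x => σ (D.sh m x)) = (d.P (p.1, p.2 + m)).c2 σ := by
  funext z
  by_cases hz : z ∈ ball (0 : C2) 3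
  · simp only [Patch.c2, if_pos hz]
    show loc2 1 (pch 𝒰 p.1 p.2) (fun x => bp (s p.1 p.2 x) (σ (D.sh m x))) z =
      loc2 1 (pch 𝒰 p.1 (p.2 + m)) (fun x => bp (s p.1 (p.2 + m) x) (σ x)) z
    rw [loc2_pch_sh 1 p.1 p.2 m (closedBall_sub_ech 𝒰 p.1 (r := 3) (by norm_num)
      (ball_subset_closedBall hz))]
    simp only [hs]
  · simp only [Patch.c2, if_neg hz]

theorem U_sh {m : ℤ} {μ : ℂ} (hs : ∀ i k x, s i (k + m) (D.sh m x) = s i k x)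
    (ht : ∀ i k x, t i (k + m) (D.sh m x) = t i k x)
    (hA : ∀ η, T1on L.dual 1 univ η → Af A (fun x => η (D.sh m x)) = μ⁻¹ * Af A η)
    (p : Fin 𝒰.N × ℤ) (σ : M → EuclideanSpace ℂ ι)
    (hσ : T2on L.dual 1 (tsupport (rhoP 𝒰 (p.1, p.2 + m))) σ) :
    d.U p (fun x => σ (D.sh m x)) = μ⁻¹ * d.U (p.1, p.2 + m) σ := by
  set q : Fin 𝒰.N × ℤ := (p.1, p.2 + m) with hq
  have hsub : tsupport (rhoP 𝒰 q) ⊆ (d.P q).dom 3 := by
    intro x hx
    have h1 := tsupport_rhoP hx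
    refine (mem_dom_iff (d.fr q.1 q.2) (by norm_num)).2 ?_
    exact 𝒰.Bc_sub_B q.1 (by norm_num) h1
  have hT : Test (ball (0 : C2) 3) ((d.P q).c2 σ) :=
    (d.P q).test_c2 (N := (d.P q).dom 3) subset_rfl (fun x hx => hx.2)
      ⟨hσ.reg, hσ.sec, hσ.cpt, hσ.supp.trans hsub⟩
  simp only [U, Patch.U, H869.Uf, Patch.Lam]
  rw [d.c2_sh hs p σ]
  set g : C2 → Fin 2 → ℂ := fun z => H869.chi z • H869.T2 ((d.P q).c2 σ) z with hg
  have hgT : Test (ball (0 : C2) 3) g := H869.test_chi_T2 hT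
  have hJ := (d.P q).t1F_J1 hgT subset_rfl
  have h1 := hA ((d.P q).J1 g) ⟨hJ.reg, hJ.sec, hJ.cpt, subset_univ _⟩
  rw [← h1]
  congr 1
  funext x
  exact (d.J1_sh ht p g x).symm

/-- **equivariance** -/
theorem equiv [SigmaCompactSpace M] {m : ℤ} {μ : ℂ} (hμ : μ ≠ 0)
    (hP : ∀ x, L.P (D.sh m x) = L.P x) (ha : ∀ x, a (D.sh m x) = a x)
    (hs : ∀ i k x, s i (k + m) (D.sh m x) = s i k x)
    (ht : ∀ i k x, t i (k + m) (D.sh m x) = t i k x)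
    (hA : ∀ η, T1on L.dual 1 univ η → Af A (fun x => η (D.sh m x)) = μ⁻¹ * Af A η)
    {v : M → Fin 2 → EuclideanSpace ℂ ι}
    (hv : ∀ x, RepAt L (Bf L a (Af A) (rhoP 𝒰) d.U) x v) : D.Equiv m μ v := by
  refine equiv_of_rep hμ hP (fun η hη => ?_) hv
  exact Bf_equiv hP ha d.hol.smooth reg0_rhoP hA
    ((Equiv.refl (Fin 𝒰.N)).prodCongr (Equiv.addRight m))
    (fun p x => rhoP_sh p m x) (fun p σ hσ => d.U_sh hs ht hA p σ hσ) η hη

end Dat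

end Vale.Agent.P267.H306
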