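import Vale.Agent.P267.H306.Tch
import Vale.Agent.P267.H378.Met2

/-!
# P267 / XA-T2 (helper306): charts of the periodic cover, comparison of norms
-/

set_option linter.unusedVariables false
set_option linter.unusedSectionVars false

open scoped Manifold ContDiff ComplexConjugate Matrix ComplexOrder Topology
open MeasureTheory Set Filter Metric

noncomputable section

namespace Vale.Agent.P267.H306

open FL XT
open Vale.Agent.P267.H869 (mAt maxCS maxM)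

variable {M : Type} [TopologicalSpace M] [ChartedSpace C2 M]
variable [IsManifold 𝓘(ℂ, C2) ω M]

/-! ### Hermitian metrics in the maximal atlas -/

theorem loc11_change {e e' : Ch M} (he : e ∈ mAt M) (he' : e' ∈ mAt M) {x : M}
    (hx : x ∈ e.source) (hx' : x ∈ e'.source) (g : M → Matrix (Fin 2) (Fin 2) ℂ) (i j : Fin 2) :
    loc11 e g (e x) i j = ∑ q, (∑ p, jacM e e' x p i * loc11 e' g (e' x) p q) *
      conj (jacM e e' x q j) := by
  have h1 := H869.max_jac_eq he he' hx hx'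
  rw [H378.loc11_eq hx, H378.loc11_eq hx', h1]
  have h2 : (jac e' x * jacM e e' x).map (conj : ℂ → ℂ) =
      (jac e' x).map (conj : ℂ → ℂ) * (jacM e e' x).map (conj : ℂ → ℂ) := by
    ext i j
    simp only [Matrix.map_apply, Matrix.mul_apply, map_sum, map_mul]
  rw [h2, Matrix.transpose_mul]
  have h3 : (jacM e e' x)ᵀ * (jac e' x)ᵀ * g x * ((jac e' x).map (conj : ℂ → ℂ) *
      (jacM e e' x).map (conj : ℂ → ℂ)) =
      (jacM e e' x)ᵀ * ((jac e' x)ᵀ * g x * (jac e' x).map (conj : ℂ → ℂ)) *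
        (jacM e e' x).map (conj : ℂ → ℂ) := by
    simp only [Matrix.mul_assoc]
  rw [h3]
  simp only [Matrix.mul_apply, Matrix.transpose_apply, Matrix.map_apply]

theorem reg11_max {n : WithTop ℕ∞} {g : M → Matrix (Fin 2) (Fin 2) ℂ} (h : Reg11 n g) :
    @Reg11 M _ (maxCS M) ℂ _ _ n g := by
  intro e he i j z₀ hz₀
  have he : e ∈ mAt M := he
  set x₀ := e.symm z₀ with hx₀
  set e' := chartAt C2 x₀ with he'
  have he'a : e' ∈ atlas C2 M := chart_mem_atlas C2 x₀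
  have he'm : e' ∈ mAt M := IsManifold.subset_maximalAtlas he'a
  have hx : x₀ ∈ e.source := e.map_target hz₀
  have hx' : x₀ ∈ e'.source := mem_chart_source C2 x₀
  have hez : e x₀ = z₀ := e.right_inv hz₀
  have hev : ∀ᶠ z in 𝓝 z₀, z ∈ e.target ∧ e.symm z ∈ e'.source := by
    refine Filter.Eventually.and (e.open_target.mem_nhds hz₀) ?_
    have := tendsto_symm_nhds hx
    rw [hez] at this
    exact this.eventually (e'.open_source.mem_nhds hx')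
  have h1 : (fun z => @loc11 M _ (maxCS M) ℂ _ _ e g z i j) =ᶠ[𝓝 z₀] fun z =>
      ∑ q, (∑ p, jacM e e' (e.symm z) p i * loc11 e' g (e' (e.symm z)) p q) *
      conj (jacM e e' (e.symm z) q j) := by
    filter_upwards [hev] with z hz
    have h2 := loc11_change he he'm (e.map_target hz.1) hz.2 g i j
    rw [e.right_inv hz.1] at h2
    exact h2
  have hJ : ∀ p q, ContDiffAt ℝ n (fun z => jacM e e' (e.symm z) p q) z₀ := fun p q => by
    have h3 := H869.max_jacM_analyticAt he he'm hx hx' p q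
    rw [hez] at h3
    exact (h3.contDiffAt (n := n)).restrict_scalars ℝ
  have hT : ContDiffAt ℝ n (fun z => e' (e.symm z)) z₀ := by
    have h3 := H869.max_trans_analyticAt he he'm hx hx'
    rw [hez] at h3
    exact (h3.contDiffAt (n := n)).restrict_scalars ℝ
  have hA : ∀ p q, ContDiffAt ℝ n (fun z => loc11 e' g (e' (e.symm z)) p q) z₀ := fun p q => by
    have h3 : ContDiffAt ℝ n (fun w => loc11 e' g w p q) (e' (e.symm z₀)) :=
      (h e' he'a p q).contDiffAt (e'.open_target.mem_nhds (e'.map_source hx'))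
    exact h3.comp z₀ hT
  have h4 : ContDiffAt ℝ n (fun z =>
      ∑ q, (∑ p, jacM e e' (e.symm z) p i * loc11 e' g (e' (e.symm z)) p q) *
      conj (jacM e e' (e.symm z) q j)) z₀ := by
    refine ContDiffAt.sum fun q _ => ContDiffAt.mul (ContDiffAt.sum fun p _ => ?_) ?_
    · exact (hJ p i).mul (hA p q)
    · exact (Complex.conjCLE.contDiff.contDiffAt).comp z₀ (hJ q j)
  exact (h4.congr_of_eventuallyEq h1).contDiffWithinAt

theorem isHerm_max {h : M → Matrix (Fin 2) (Fin 2) ℂ} (hh : IsHerm h) :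
    @IsHerm M _ (maxCS M) h := @IsHerm.mk M _ (maxCS M) h hh.posDef (reg11_max hh.smooth)

/-! ### the charts `pch 𝒰 i k`: `γ^k B_i(1/2)` corresponds to the ball of radius `3` -/

variable {D : XTData M} (𝒰 : H181.PCov D)

theorem scale_ne (i : Fin 𝒰.N) : 6 / 𝒰.R i ≠ 0 := div_ne_zero (by norm_num) (𝒰.R_pos i).ne'

/-- the rescaled chart `i` -/
def ech (i : Fin 𝒰.N) : Ch M := scC (𝒰.e i) (𝒰.c i) (6 / 𝒰.R i) (scale_ne 𝒰 i)

/-- the rescaled chart `i`, translated by `γ^k` -/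
def pch (i : Fin 𝒰.N) (k : ℤ) : Ch M := trC D k (ech 𝒰 i)

theorem ech_mem (i : Fin 𝒰.N) : ech 𝒰 i ∈ mAt M := scC_mem (𝒰.e_mem i) _ _ _

theorem pch_mem (i : Fin 𝒰.N) (k : ℤ) : pch 𝒰 i k ∈ mAt M := trC_mem D (ech_mem 𝒰 i) k

theorem smul_ball {c z : C2} {R r : ℝ} (hR : 0 < R) :
    (6 / R) • (z - c) ∈ ball (0 : C2) r ↔ z ∈ ball c (r / 6 * R) := by
  rw [mem_ball_zero_iff, norm_smul, mem_ball, dist_eq_norm, Real.norm_eq_abs,
    abs_of_pos (by positivity : 0 < 6 / R), div_mul_eq_mul_div, div_lt_iff₀ hR]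
  constructor <;> intro h <;> linarith

theorem smul_closedBall {c z : C2} {R r : ℝ} (hR : 0 < R) :
    (6 / R) • (z - c) ∈ closedBall (0 : C2) r ↔ z ∈ closedBall c (r / 6 * R) := by
  rw [mem_closedBall_zero_iff, norm_smul, mem_closedBall, dist_eq_norm, Real.norm_eq_abs,
    abs_of_pos (by positivity : 0 < 6 / R), div_mul_eq_mul_div, div_le_iff₀ hR]
  constructor <;> intro h <;> linarith

theorem ech_symm (i : Fin 𝒰.N) (z : C2) :
    (ech 𝒰 i).symm z = (𝒰.e i).symm ((6 / 𝒰.R i)⁻¹ • z + 𝒰.c i) := rfl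

theorem ech_source (i : Fin 𝒰.N) : (ech 𝒰 i).source = (𝒰.e i).source := scC_source _ _ _ _

/-- points of the patches -/
theorem mem_pch_ball {i : Fin 𝒰.N} {k : ℤ} {r : ℝ} (hr : r ≤ 6) {x : M} :
    (x ∈ (pch 𝒰 i k).source ∧ pch 𝒰 i k x ∈ ball (0 : C2) r) ↔
      D.sh (-k) x ∈ 𝒰.B i (r / 6) := by
  rw [𝒰.mem_B (by linarith), pch, trC_source, ech_source, trC_apply, ech, scC_apply,
    smul_ball (𝒰.R_pos i)]

theorem mem_pch_closedBall {i : Fin 𝒰.N} {k : ℤ} {r : ℝ} (hr : r ≤ 6) {x : M} :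
    (x ∈ (pch 𝒰 i k).source ∧ pch 𝒰 i k x ∈ closedBall (0 : C2) r) ↔
      D.sh (-k) x ∈ 𝒰.Bc i (r / 6) := by
  rw [pch, trC_source, ech_source, trC_apply, ech, scC_apply, smul_closedBall (𝒰.R_pos i)]
  constructor
  · rintro ⟨h1, h2⟩
    exact ⟨_, h2, (𝒰.e i).left_inv h1⟩
  · rintro ⟨z, hz, hzx⟩
    have := 𝒰.sub' i (t := r / 6) (by linarith) hz
    rw [← hzx]
    exact ⟨(𝒰.e i).map_target this, by rwa [(𝒰.e i).right_inv this]⟩

theorem closedBall_sub_ech (i : Fin 𝒰.N) {r : ℝ} (hr : r ≤ 6) :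
    closedBall (0 : C2) r ⊆ (ech 𝒰 i).target := by
  intro z hz
  rw [ech, scC_target]
  refine 𝒰.sub' i (t := r / 6) (by linarith) ?_
  rw [← smul_closedBall (𝒰.R_pos i)]
  have h1 : (6 / 𝒰.R i) • ((6 / 𝒰.R i)⁻¹ • z + 𝒰.c i - 𝒰.c i) = z := by
    rw [add_sub_cancel_right, smul_smul, mul_inv_cancel₀ (scale_ne 𝒰 i), one_smul]
  rw [h1]
  exact hz

theorem pch_target (i : Fin 𝒰.N) (k : ℤ) : (pch 𝒰 i k).target = (ech 𝒰 i).target :=
  trC_target D k _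

theorem closedBall_sub_pch (i : Fin 𝒰.N) (k : ℤ) {r : ℝ} (hr : r ≤ 6) :
    closedBall (0 : C2) r ⊆ (pch 𝒰 i k).target := by
  rw [pch_target]; exact closedBall_sub_ech 𝒰 i hr

theorem pch_symm (i : Fin 𝒰.N) (k : ℤ) (z : C2) :
    (pch 𝒰 i k).symm z = D.sh k ((ech 𝒰 i).symm z) := trC_symm_apply D k _ z

theorem jac_pch (i : Fin 𝒰.N) (k : ℤ) {z : C2} (hz : z ∈ (ech 𝒰 i).target) :
    jac (pch 𝒰 i k) ((pch 𝒰 i k).symm z) = jac (ech 𝒰 i) ((ech 𝒰 i).symm z) := by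
  rw [pch_symm]
  exact jac_trC k ((ech 𝒰 i).map_target hz)

variable {V : Type*} [NormedAddCommGroup V] [InnerProductSpace ℂ V]

theorem loc0_pch (κ : ℤ) (i : Fin 𝒰.N) (k : ℤ) {z : C2} (hz : z ∈ (ech 𝒰 i).target) (u : M → V) :
    loc0 κ (pch 𝒰 i k) u z = loc0 κ (ech 𝒰 i) (fun x => u (D.sh k x)) z := by
  rw [loc0, jac_pch 𝒰 i k hz, pch_symm]; rfl

theorem loc1_pch (κ : ℤ) (i : Fin 𝒰.N) (k : ℤ) {z : C2} (hz : z ∈ (ech 𝒰 i).target)
    (u : M → Fin 2 → V) :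
    loc1 κ (pch 𝒰 i k) u z = loc1 κ (ech 𝒰 i) (fun x => u (D.sh k x)) z := by
  funext j
  simp only [loc1]
  rw [jac_pch 𝒰 i k hz, pch_symm]

theorem loc2_pch (κ : ℤ) (i : Fin 𝒰.N) (k : ℤ) {z : C2} (hz : z ∈ (ech 𝒰 i).target) (u : M → V) :
    loc2 κ (pch 𝒰 i k) u z = loc2 κ (ech 𝒰 i) (fun x => u (D.sh k x)) z := by
  rw [loc2, jac_pch 𝒰 i k hz, pch_symm]; rfl

/-- comparison of norms, uniformly in `i` and `k` -/
theorem cmp1 (κ : ℤ) : ∃ C, 0 < C ∧ ∀ (i : Fin 𝒰.N) (k : ℤ), ∀ z ∈ closedBall (0 : C2) 3,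
    ∀ (a : M → Fin 2 → V), ‖loc1 κ (pch 𝒰 i k) a z‖ ≤ C * n1 D.h κ a ((pch 𝒰 i k).symm z) ∧
      n1 D.h κ a ((pch 𝒰 i k).symm z) ≤ C * ‖loc1 κ (pch 𝒰 i k) a z‖ := by
  have h1 : ∀ i : Fin 𝒰.N, ∃ C > 0, ∀ z ∈ closedBall (0 : C2) 3, ∀ (a : M → Fin 2 → V),
      ‖loc1 κ (ech 𝒰 i) a z‖ ≤ C * n1 D.h κ a ((ech 𝒰 i).symm z) ∧
        n1 D.h κ a ((ech 𝒰 i).symm z) ≤ C * ‖loc1 κ (ech 𝒰 i) a z‖ := fun i => by
    obtain ⟨C, hC, h⟩ := @H378.n1_compare M _ (maxCS M) (maxM M) D.h (isHerm_max D.herm)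
      (ech 𝒰 i) (ech_mem 𝒰 i) (closedBall 0 3) (closedBall_sub_ech 𝒰 i (by norm_num))
      (isCompact_closedBall _ _) κ
    exact ⟨C, hC, fun z hz a => h z hz a⟩
  choose C hC h using h1
  refine ⟨1 + ∑ i, C i, by
    have := Finset.sum_nonneg fun i (_ : i ∈ Finset.univ) => (hC i).le
    linarith, fun i k z hz a => ?_⟩
  have hz' := closedBall_sub_ech 𝒰 i (r := 3) (by norm_num) hz
  have h2 := h i z hz (fun x => a (D.sh k x))
  have hCi : C i ≤ 1 + ∑ i, C i := by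
    have := Finset.single_le_sum (fun i _ => (hC i).le) (Finset.mem_univ i)
    linarith
  rw [loc1_pch 𝒰 κ i k hz', pch_symm]
  rw [D.n1_comp_sh] at h2
  exact ⟨h2.1.trans (mul_le_mul_of_nonneg_right hCi (H378.n1_nonneg (D.herm.posDef _) κ a)),
    h2.2.trans (mul_le_mul_of_nonneg_right hCi (norm_nonneg _))⟩

theorem cmp2 (κ : ℤ) : ∃ C, 0 < C ∧ ∀ (i : Fin 𝒰.N) (k : ℤ), ∀ z ∈ closedBall (0 : C2) 3,
    ∀ (a : M → V), ‖loc2 κ (pch 𝒰 i k) a z‖ ≤ C * n2 D.h κ a ((pch 𝒰 i k).symm z) ∧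
      n2 D.h κ a ((pch 𝒰 i k).symm z) ≤ C * ‖loc2 κ (pch 𝒰 i k) a z‖ := by
  have h1 : ∀ i : Fin 𝒰.N, ∃ C > 0, ∀ z ∈ closedBall (0 : C2) 3, ∀ (a : M → V),
      ‖loc2 κ (ech 𝒰 i) a z‖ ≤ C * n2 D.h κ a ((ech 𝒰 i).symm z) ∧
        n2 D.h κ a ((ech 𝒰 i).symm z) ≤ C * ‖loc2 κ (ech 𝒰 i) a z‖ := fun i => by
    obtain ⟨C, hC, h⟩ := @H378.n2_compare M _ (maxCS M) (maxM M) D.h (isHerm_max D.herm)
      (ech 𝒰 i) (ech_mem 𝒰 i) (closedBall 0 3) (closedBall_sub_ech 𝒰 i (by norm_num))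
      (isCompact_closedBall _ _) κ
    exact ⟨C, hC, fun z hz a => h z hz a⟩
  choose C hC h using h1
  refine ⟨1 + ∑ i, C i, by
    have := Finset.sum_nonneg fun i (_ : i ∈ Finset.univ) => (hC i).le
    linarith, fun i k z hz a => ?_⟩
  have hz' := closedBall_sub_ech 𝒰 i (r := 3) (by norm_num) hz
  have h2 := h i z hz (fun x => a (D.sh k x))
  have hCi : C i ≤ 1 + ∑ i, C i := by
    have := Finset.single_le_sum (fun i _ => (hC i).le) (Finset.mem_univ i)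
    linarith
  rw [loc2_pch 𝒰 κ i k hz', pch_symm]
  rw [D.n2_comp_sh] at h2
  exact ⟨h2.1.trans (mul_le_mul_of_nonneg_right hCi (H378.n2_nonneg (D.herm.posDef _) κ a)),
    h2.2.trans (mul_le_mul_of_nonneg_right hCi (norm_nonneg _))⟩

end Vale.Agent.P267.H306
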