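import Vale.Agent.P267.H306.Pat6
import Vale.Agent.P267.H877.Leaves

/-!
# P267 / XA-T2 (helper306): the theorem `T0KLeaf → T2Leaf`
-/

set_option linter.unusedVariables false
set_option linter.unusedSectionVars false

open scoped Manifold ContDiff ComplexConjugate Matrix ComplexOrder Topology
open MeasureTheory Set Filter Metric

noncomputable section

namespace Vale.Agent.P267.H306

open FL XT
open Vale.Agent.P267.H869 (ng Af Af_eq)
open Vale.Agent.P267.H181 (PCov DFrame)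

variable {M : Type} [TopologicalSpace M] [ChartedSpace C2 M] [IsManifold 𝓘(ℂ, C2) ω M]
variable {ι : Type} [Fintype ι] [DecidableEq ι]

theorem sigmaCompact (D : XTData M) : SigmaCompactSpace M := by
  refine ⟨⟨fun n : ℕ => D.f ⁻¹' Icc (-(n : ℝ)) n, fun n => D.f_proper _ _, ?_⟩⟩
  refine eq_univ_of_forall fun x => mem_iUnion.2 ?_
  obtain ⟨n, hn⟩ := exists_nat_ge |D.f x|
  exact ⟨n, (_root_.abs_le.1 hn)⟩

theorem X₀_linear (N : ℕ) (δ : ℝ) (hδ : 0 < δ) (C₁ C Λ K B : ℝ) :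
    Dat.X₀ N δ hδ C₁ C Λ K B = Dat.X₀ N δ hδ C₁ C Λ K 1 * B := by
  simp only [Dat.X₀, Dat.V₀, Dat.W₀, Dat.R₀]
  ring

variable [T2Space M]

/-- **XA-T2** -/
theorem t2Leaf (D : XTData M) (h : D.T0KLeaf) : D.T2Leaf := by
  intro ι _ _ L i₀ a R N m₀ Lm am hN hE hP Λ
  have := sigmaCompact D
  obtain ⟨m₂, C₀, hC₀, hT0⟩ := h ι L.dual i₀ (fun x i => -a x i) R N m₀ (fun m => (Lm m).dual)
    (fun m x i => -am m x i) hN hE.dual hP.dual Λ
  obtain ⟨𝒰, Cf, m₃, hCf, hm₃, ⟨s, t, hfr⟩, hfrm⟩ := H181.exists_dframes D hN.le hE hP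
  obtain ⟨C₁, hc⟩ := exists_cmp 𝒰 ι
  obtain ⟨δ, hδ, hδ2, hdel⟩ := exists_delta 𝒰
  have hV := VolC_nonneg (D := D)
  set K := 4 * VolC D * C₀ with hK
  have hK0 : 0 ≤ K := by positivity
  refine ⟨max m₂ m₃, max (Dat.X₀ 𝒰.N δ hδ C₁ Cf Λ K 1) 0, le_max_right _ _, fun w hw => ⟨?_, ?_⟩⟩
  · intro r hr hrs B hB hrB
    obtain ⟨A, hA1, hA2⟩ := func_M (L := L.dual) (a := fun x i => -a x i) hE.dual.hol.smooth hr
      (fun j => (hw.pos j).le) hB hrB hC₀ (hT0 w hw).2.1
    have d : Dat 𝒰 Cf Λ K B L a s t w r A :=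
      { hC := hCf
        hol := hE.hol
        fr := hfr
        wt := hw
        reg := hr
        sec := hrs
        B0 := hB
        rB := hrB
        K0 := hK0
        bd := fun η => (hA2 η).trans (mul_le_mul_of_nonneg_right
          (by rw [hK]; nlinarith [mul_nonneg (mul_nonneg hV hB) hC₀])
          (tsum_nonneg fun j => mul_nonneg (hw.pos j).le (p1_nonneg 1 _ j)))
        eq := fun han φ => hA1 φ }
    obtain ⟨v, h1, h2, h3, h4, h5⟩ := d.exists_solution hc hδ hδ2 hdel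
    refine ⟨v, h1, h2, h3, fun j => (h4 j).trans ?_⟩
    rw [X₀_linear]
    exact mul_le_mul_of_nonneg_right (mul_le_mul_of_nonneg_right (le_max_left _ _) hB)
      (hw.pos j).le
  · intro m hm μ hμ hwm r hr hrs hrE B hB hrB
    have hm2 : m₂ ≤ m := (le_max_left _ _).trans hm
    have hm3 : m₃ ≤ m := (le_max_right _ _).trans hm
    have hm0 : m₀ ≤ m := hm₃.trans hm3
    have hmpos : 0 < m := lt_of_lt_of_le (by norm_num) (hP.two_le.trans hm0)
    obtain ⟨s, t, hfr, hsp, htp⟩ := hfrm m hm3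
    have hmz : (m : ℤ) ≠ 0 := by exact_mod_cast hmpos.ne'
    have hPm : ∀ x, (Lm m).P (D.sh m x) = (Lm m).P x := fun x => by
      rw [hP.perP m hm0, hP.perP m hm0, D.mv_sh hmz]
    have ham : ∀ x, am m (D.sh m x) = am m x := hP.pera m hm0
    have hper : PerBdl D m (Lm m).dual (fun x i => -am m x i) :=
      ⟨fun x => by
        show ((Lm m).P (D.sh m x))ᵀ = ((Lm m).P x)ᵀ
        rw [hPm], fun x => by funext i; rw [ham]⟩
    obtain ⟨A, hA1, hA2, hA3⟩ := func_m hmpos (L := (Lm m).dual) (a := fun x i => -am m x i)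
      (hP.dual.hol m hm0).smooth hper hμ hr hrE (fun j => (hw.pos j).le) hwm hB hrB hC₀
      (((hT0 w hw).2.2 m hm2).2 μ hμ hwm)
    have d : Dat 𝒰 Cf Λ K B (Lm m) (am m) s t w r A :=
      { hC := hCf
        hol := hP.hol m hm0
        fr := hfr
        wt := hw
        reg := hr
        sec := hrs
        B0 := hB
        rB := hrB
        K0 := hK0
        bd := fun η => (hA2 η).trans (le_of_eq (by rw [hK]; ring))
        eq := fun han φ => hA1 φ }
    obtain ⟨v, h1, h2, h3, h4, h5⟩ := d.exists_solution hc hδ hδ2 hdel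
    refine ⟨v, h1, h2, ?_, h3, fun j => (h4 j).trans ?_⟩
    · refine d.equiv hμ hPm ham hsp htp (fun η hη => ?_) h5
      have hPd : ∀ x, (Lm m).dual.P (D.sh m x) = (Lm m).dual.P x := hper.P_sh
      have hη' : T1on (Lm m).dual 1 univ (fun x => η (D.sh m x)) :=
        (hη.comp_sh hPd).mono (subset_univ _)
      rw [Af_eq A hη'.test, Af_eq A hη.test]
      exact hA3 ⟨η, hη.test⟩ ⟨_, hη'.test⟩ fun x => rfl
    · rw [X₀_linear]
      exact mul_le_mul_of_nonneg_right (mul_le_mul_of_nonneg_right (le_max_left _ _) hB)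
        (hw.pos j).le

end Vale.Agent.P267.H306
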