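import Vale.Agent.P267.H306.T2
import Vale.Agent.P267.H877.XtFin

/-!
# P267 / XA-T2: `XT.T2Thm` (helper306)
-/

open scoped ContDiff Manifold

noncomputable section

namespace Vale.Agent.P267.H306

/-- **XA-T2** in the form of the assembly -/
theorem t2Thm : XT.T2Thm := by
  intro M _ _ _ _ _ D h
  exact t2Leaf D h

end Vale.Agent.P267.H306
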