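import Vale.Agent.P267.H869.MaxInt
import Vale.Agent.P267.H181.UFrm2
import Vale.Agent.P267.H877.Trans

/-!
# P267 / XA-T2 (helper306): rescaled and translated charts
-/

set_option linter.unusedVariables false
set_option linter.unusedSectionVars false

open scoped Manifold ContDiff ComplexConjugate Matrix ComplexOrder Topology
open MeasureTheory Set Filter Metric

noncomputable section

namespace Vale.Agent.P267.H306

open FL XT
open Vale.Agent.P267.H869 (mAt)

variable {M : Type} [TopologicalSpace M] [ChartedSpace C2 M]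
variable [IsManifold 𝓘(ℂ, C2) ω M]

theorem mem_groupoid {f : OpenPartialHomeomorph C2 C2} (h : ∀ z ∈ f.source, AnalyticAt ℂ f z)
    (h' : ∀ z ∈ f.target, AnalyticAt ℂ f.symm z) : f ∈ contDiffGroupoid ω 𝓘(ℂ, C2) := by
  rw [contDiffGroupoid, mem_groupoid_of_pregroupoid]
  constructor
  · have : ContDiffOn ℂ ω f f.source := fun z hz => ((h z hz).contDiffAt).contDiffWithinAt
    simpa [contDiffPregroupoid] using this
  · have : ContDiffOn ℂ ω f.symm f.target := fun z hz => ((h' z hz).contDiffAt).contDiffWithinAt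
    simpa [contDiffPregroupoid] using this

theorem mem_mAt_of_analytic {e : Ch M} (h : ∀ e' ∈ atlas C2 M, ∀ x ∈ e.source, x ∈ e'.source →
    AnalyticAt ℂ (fun z => e' (e.symm z)) (e x) ∧ AnalyticAt ℂ (fun z => e (e'.symm z)) (e' x)) :
    e ∈ mAt M := by
  rw [mAt, IsManifold.mem_maximalAtlas_iff, mem_maximalAtlas_iff]
  intro e' he'
  have h1 : ∀ z ∈ e.target, e.symm z ∈ e'.source → AnalyticAt ℂ (fun z => e' (e.symm z)) z := by
    intro z hz hz'
    have := (h e' he' _ (e.map_target hz) hz').1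
    rwa [e.right_inv hz] at this
  have h2 : ∀ z ∈ e'.target, e'.symm z ∈ e.source → AnalyticAt ℂ (fun z => e (e'.symm z)) z := by
    intro z hz hz'
    have := (h e' he' _ hz' (e'.map_target hz)).2
    rwa [e'.right_inv hz] at this
  constructor
  · exact mem_groupoid (fun z hz => h1 z (by simpa using hz.1) (by simpa using hz.2))
      (fun z hz => h2 z (by simpa using hz.1) (by simpa using hz.2))
  · exact mem_groupoid (fun z hz => h2 z (by simpa using hz.1) (by simpa using hz.2))
      (fun z hz => h1 z (by simpa using hz.1) (by simpa using hz.2))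

/-! ### affine rescaling -/

/-- `z ↦ ρ (z - c)` -/
def affH (c : C2) (ρ : ℝ) (hρ : ρ ≠ 0) : C2 ≃ₜ C2 where
  toFun z := ρ • (z - c)
  invFun z := ρ⁻¹ • z + c
  left_inv z := by simp [smul_smul, inv_mul_cancel₀ hρ]
  right_inv z := by simp [smul_smul, mul_inv_cancel₀ hρ]
  continuous_toFun := by fun_prop
  continuous_invFun := by fun_prop

theorem affH_analytic (c : C2) (ρ : ℝ) (hρ : ρ ≠ 0) (z : C2) : AnalyticAt ℂ (affH c ρ hρ) z := by
  have : (affH c ρ hρ : C2 → C2) = fun z => (ρ : ℂ) • (z - c) := by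
    funext z; ext i; simp [affH]
  rw [this]
  fun_prop

theorem affH_symm_analytic (c : C2) (ρ : ℝ) (hρ : ρ ≠ 0) (z : C2) :
    AnalyticAt ℂ (affH c ρ hρ).symm z := by
  have : ((affH c ρ hρ).symm : C2 → C2) = fun z => ((ρ⁻¹ : ℝ) : ℂ) • z + c := by
    funext z; ext i; simp [affH]
  rw [this]
  fun_prop

/-- the rescaled chart -/
def scC (e : Ch M) (c : C2) (ρ : ℝ) (hρ : ρ ≠ 0) : Ch M :=
  e ≫ₕ (affH c ρ hρ).toOpenPartialHomeomorph

theorem scC_apply (e : Ch M) (c : C2) (ρ : ℝ) (hρ : ρ ≠ 0) (x : M) :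
    scC e c ρ hρ x = ρ • (e x - c) := rfl

theorem scC_symm_apply (e : Ch M) (c : C2) (ρ : ℝ) (hρ : ρ ≠ 0) (z : C2) :
    (scC e c ρ hρ).symm z = e.symm (ρ⁻¹ • z + c) := rfl

theorem scC_source (e : Ch M) (c : C2) (ρ : ℝ) (hρ : ρ ≠ 0) : (scC e c ρ hρ).source = e.source := by
  simp [scC]

theorem scC_target (e : Ch M) (c : C2) (ρ : ℝ) (hρ : ρ ≠ 0) (z : C2) :
    z ∈ (scC e c ρ hρ).target ↔ ρ⁻¹ • z + c ∈ e.target := by
  simp only [scC, OpenPartialHomeomorph.trans_target]
  simp only [Homeomorph.toOpenPartialHomeomorph_target, mem_inter_iff, mem_univ, true_and]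
  rfl

theorem scC_mem {e : Ch M} (he : e ∈ atlas C2 M) (c : C2) (ρ : ℝ) (hρ : ρ ≠ 0) :
    scC e c ρ hρ ∈ mAt M := by
  refine mem_mAt_of_analytic fun e' he' x hx hx' => ?_
  rw [scC_source] at hx
  constructor
  · have h1 := trans_analyticAt he he' hx hx'
    have h2 := affH_symm_analytic c ρ hρ (scC e c ρ hρ x)
    have h3 : (affH c ρ hρ).symm (scC e c ρ hρ x) = e x := (affH c ρ hρ).symm_apply_apply (e x)
    rw [← h3] at h1
    exact h1.comp h2
  · have h1 := trans_analyticAt he' he hx' hx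
    have h2 := affH_analytic c ρ hρ (e (e'.symm (e' x)))
    exact AnalyticAt.comp (g := affH c ρ hρ) (f := fun z => e (e'.symm z)) h2 h1

/-! ### translated charts -/

variable (D : XTData M)

theorem sh_symm (k : ℤ) (x : M) : (D.γ ^ (-k)).symm x = D.sh k x := by
  apply (D.γ ^ (-k)).injective
  rw [Homeomorph.apply_symm_apply]
  exact (D.sh_neg_sh k x).symm

/-- the chart `e ∘ γ^{-k}` -/
def trC (k : ℤ) (e : Ch M) : Ch M := (D.γ ^ (-k)).toOpenPartialHomeomorph ≫ₕ e

theorem trC_apply (k : ℤ) (e : Ch M) (x : M) : trC D k e x = e (D.sh (-k) x) := rfl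

theorem trC_symm_apply (k : ℤ) (e : Ch M) (z : C2) : (trC D k e).symm z = D.sh k (e.symm z) := by
  rw [← sh_symm]; rfl

theorem trC_source (k : ℤ) (e : Ch M) (x : M) :
    x ∈ (trC D k e).source ↔ D.sh (-k) x ∈ e.source := by
  simp only [trC, OpenPartialHomeomorph.trans_source, Homeomorph.toOpenPartialHomeomorph_source,
    mem_inter_iff, mem_univ, true_and]
  rfl

theorem trC_target (k : ℤ) (e : Ch M) : (trC D k e).target = e.target := by
  simp [trC]

theorem sh_mem_trC {k : ℤ} {e : Ch M} {x : M} (hx : x ∈ e.source) :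
    D.sh k x ∈ (trC D k e).source := by
  rw [trC_source, D.sh_neg_sh]; exact hx

theorem trC_mem {e : Ch M} (he : e ∈ mAt M) (k : ℤ) : trC D k e ∈ mAt M := by
  refine mem_mAt_of_analytic fun e' he' y hy hy' => ?_
  rw [trC_source] at hy
  set x := D.sh (-k) y with hx
  have hyx : y = D.sh k x := by rw [hx, D.sh_sh_neg]
  have hcx := mem_chart_source C2 x
  have hcy : y ∈ (chartAt C2 y).source := mem_chart_source C2 y
  have hcxm : chartAt C2 x ∈ mAt M := IsManifold.chart_mem_maximalAtlas x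
  have hg := D.chart_sh k x
  rw [← hyx] at hg
  have he'm : e' ∈ mAt M := IsManifold.subset_maximalAtlas he'
  have hcym : chartAt C2 y ∈ mAt M := IsManifold.chart_mem_maximalAtlas y
  have hpt : chartAt C2 y y = chartAt C2 x x := by
    have h := hg.self_of_nhds
    have h' : chartAt C2 y (D.sh k x) = chartAt C2 x x := h
    rwa [← hyx] at h'
  constructor
  · -- `e' ∘ γ^k ∘ e.symm`
    have h1 := H869.max_trans_analyticAt he hcxm hy hcx
    have h2 := H869.max_trans_analyticAt hcym he'm hcy hy'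
    have h2' : AnalyticAt ℂ (fun z => e' ((chartAt C2 y).symm z)) (chartAt C2 x (e.symm (e x))) := by
      rw [e.left_inv hy, ← hpt]; exact h2
    have h3 := AnalyticAt.comp (g := fun w => e' ((chartAt C2 y).symm w))
      (f := fun z => chartAt C2 x (e.symm z)) h2' h1
    refine h3.congr ?_
    have h4 : ∀ᶠ z in 𝓝 (e x), chartAt C2 y (D.sh k (e.symm z)) = chartAt C2 x (e.symm z) :=
      (tendsto_symm_nhds hy).eventually hg
    have h5 : ∀ᶠ z in 𝓝 (e x), D.sh k (e.symm z) ∈ (chartAt C2 y).source := by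
      have : Tendsto (fun z => D.sh k (e.symm z)) (𝓝 (e x)) (𝓝 (D.sh k x)) :=
        ((D.continuous_sh k).tendsto x).comp (tendsto_symm_nhds hy)
      rw [← hyx] at this
      exact this.eventually ((chartAt C2 y).open_source.mem_nhds hcy)
    filter_upwards [h4, h5] with z hz hz5
    simp only [Function.comp_apply, trC_symm_apply]
    rw [← hz, (chartAt C2 y).left_inv hz5]
  · have h1 := H869.max_trans_analyticAt he'm hcym hy' hcy
    have h2 := H869.max_trans_analyticAt hcxm he hcx hy
    have h2' : AnalyticAt ℂ (fun z => e ((chartAt C2 x).symm z)) (chartAt C2 y (e'.symm (e' y))) := by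
      rw [e'.left_inv hy', hpt]; exact h2
    have h3 := AnalyticAt.comp (g := fun w => e ((chartAt C2 x).symm w))
      (f := fun z => chartAt C2 y (e'.symm z)) h2' h1
    refine h3.congr ?_
    have hs : Tendsto (fun z => D.sh (-k) (e'.symm z)) (𝓝 (e' y)) (𝓝 x) := by
      have := ((D.continuous_sh (-k)).tendsto y).comp (tendsto_symm_nhds hy')
      rw [hx]; exact this
    have h4 : ∀ᶠ z in 𝓝 (e' y), chartAt C2 y (e'.symm z) =
        chartAt C2 x (D.sh (-k) (e'.symm z)) := by
      filter_upwards [hs.eventually hg] with z hz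
      rw [D.sh_sh_neg] at hz
      exact hz
    have h5 : ∀ᶠ z in 𝓝 (e' y), D.sh (-k) (e'.symm z) ∈ (chartAt C2 x).source :=
      hs.eventually ((chartAt C2 x).open_source.mem_nhds hcx)
    filter_upwards [h4, h5] with z hz hz5
    simp only [Function.comp_apply, trC_apply]
    rw [hz, (chartAt C2 x).left_inv hz5]

variable {D}

theorem jac_trC (k : ℤ) {e : Ch M} {x : M} (hx : x ∈ e.source) :
    jac (trC D k e) (D.sh k x) = jac e x := by
  have h0 : trC D k e (D.sh k x) = e x := by rw [trC_apply, D.sh_neg_sh]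
  ext p i
  simp only [jac, jacM, Matrix.of_apply, h0]
  apply dz_congr
  have h4 := (tendsto_symm_nhds hx).eventually (D.chart_sh k x)
  filter_upwards [h4] with z hz
  rw [trC_symm_apply]
  exact congrFun hz p

end Vale.Agent.P267.H306
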