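import Vale.Agent.P267.H306.Func
import Vale.Agent.P267.H399.LBCalc
import Vale.Agent.P267.H877.Dual
import Vale.Agent.P267.H533.Stokes
import Vale.Agent.P267.H439.OfLoc
import Vale.Agent.P267.H869.S3

/-!
# P267 / XA-T2 (helper306): pairing of `L`-valued and `K ⊗ L^*`-valued forms

`T0on L κ N φ`, `T1on`, `T2on`: test sections and test forms with support in `N`;
`wdg v η` = the `(2,2)`-form `v ∧ η`; Leibniz rule, Stokes, du Bois-Reymond.
-/

set_option linter.unusedVariables false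
set_option linter.unusedSectionVars false

open scoped Manifold ContDiff ComplexConjugate Matrix ComplexOrder Topology
open MeasureTheory Set Filter Metric

noncomputable section

namespace Vale.Agent.P267.H306

open FL XT H533

variable {M : Type} [TopologicalSpace M] [ChartedSpace C2 M]
variable {ι : Type} [Fintype ι] [DecidableEq ι]

/-! ### test forms with support in an open set -/

/-- smooth section of `K^κ ⊗ L` with compact support in `N` -/
structure T0on (L : LB M ι) (κ : ℤ) (N : Set M) (φ : M → EuclideanSpace ℂ ι) : Prop where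
  reg : Reg0 ∞ κ φ
  sec : L.Sec φ
  cpt : HasCompactSupport φ
  supp : tsupport φ ⊆ N

/-- smooth `(0,1)`-form with values in `K^κ ⊗ L` with compact support in `N` -/
structure T1on (L : LB M ι) (κ : ℤ) (N : Set M) (η : M → Fin 2 → EuclideanSpace ℂ ι) : Prop where
  reg : Reg1 ∞ κ η
  sec : L.Sec1 η
  cpt : HasCompactSupport η
  supp : tsupport η ⊆ N

/-- smooth `(0,2)`-form with values in `K^κ ⊗ L` with compact support in `N` -/
structure T2on (L : LB M ι) (κ : ℤ) (N : Set M) (σ : M → EuclideanSpace ℂ ι) : Prop where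
  reg : Reg2 ∞ κ σ
  sec : L.Sec σ
  cpt : HasCompactSupport σ
  supp : tsupport σ ⊆ N

variable {L : LB M ι} {κ : ℤ} {N N' : Set M}

theorem T0on.mono {φ : M → EuclideanSpace ℂ ι} (h : T0on L κ N φ) (hN : N ⊆ N') :
    T0on L κ N' φ := ⟨h.reg, h.sec, h.cpt, h.supp.trans hN⟩

theorem T1on.mono {φ : M → Fin 2 → EuclideanSpace ℂ ι} (h : T1on L κ N φ) (hN : N ⊆ N') :
    T1on L κ N' φ := ⟨h.reg, h.sec, h.cpt, h.supp.trans hN⟩

theorem T2on.mono {φ : M → EuclideanSpace ℂ ι} (h : T2on L κ N φ) (hN : N ⊆ N') :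
    T2on L κ N' φ := ⟨h.reg, h.sec, h.cpt, h.supp.trans hN⟩

theorem T0on.test {φ : M → EuclideanSpace ℂ ι} (h : T0on L κ N φ) : φ ∈ Test0 L κ :=
  ⟨h.reg, h.sec, h.cpt⟩

theorem T1on.test {η : M → Fin 2 → EuclideanSpace ℂ ι} (h : T1on L κ N η) : η ∈ Test1 L κ :=
  ⟨h.reg, h.sec, h.cpt⟩

theorem T1on.of_test (η : Test1 L κ) : T1on L κ univ (η : M → Fin 2 → EuclideanSpace ℂ ι) :=
  ⟨η.2.1, η.2.2.1, η.2.2.2, subset_univ _⟩

theorem T0on.of_test (η : Test0 L κ) : T0on L κ univ (η : M → EuclideanSpace ℂ ι) :=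
  ⟨η.2.1, η.2.2.1, η.2.2.2, subset_univ _⟩

theorem sub_supp_aux {V : Type*} [AddGroup V] {f g : M → V} {N : Set M} (hf : tsupport f ⊆ N)
    (hg : tsupport g ⊆ N) : tsupport (fun x => f x + g x) ⊆ N :=
  (closure_minimal (fun x hx => by
    by_cases h1 : f x = 0
    · exact Or.inr (subset_tsupport _ fun h2 => hx (by simp [h1, h2]))
    · exact Or.inl (subset_tsupport _ h1)) ((isClosed_tsupport f).union (isClosed_tsupport g))).trans
    (union_subset hf hg)

theorem T2on.add {σ σ' : M → EuclideanSpace ℂ ι} (h : T2on L κ N σ) (h' : T2on L κ N σ') :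
    T2on L κ N (fun x => σ x + σ' x) :=
  ⟨reg2_add h.reg h'.reg, sec_add L h.sec h'.sec, h.cpt.add h'.cpt, sub_supp_aux h.supp h'.supp⟩

theorem T2on.smul {σ : M → EuclideanSpace ℂ ι} (c : ℂ) (h : T2on L κ N σ) :
    T2on L κ N (fun x => c • σ x) :=
  ⟨reg2_smul c h.reg, sec_smul L c h.sec,
    h.cpt.mono fun x hx hx' => hx (by simp only [hx', smul_zero]),
    (closure_mono fun x (hx : c • σ x ≠ 0) (h2 : σ x = 0) => hx (by simp [h2])).trans h.supp⟩

theorem T2on.zero : T2on L κ N (fun _ => (0 : EuclideanSpace ℂ ι)) :=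
  ⟨reg2_zero, sec_zero L, HasCompactSupport.zero, by
    have : (fun _ : M => (0 : EuclideanSpace ℂ ι)) = 0 := rfl
    rw [this, tsupport_zero]; exact empty_subset _⟩

/-! ### the wedge pairing -/

/-- the `(2,2)`-form `v ∧ η` -/
def wdg (v η : M → Fin 2 → EuclideanSpace ℂ ι) (x : M) : ℂ :=
  bp (v x 0) (η x 1) - bp (v x 1) (η x 0)

theorem wdg_eq_zero_right {v η : M → Fin 2 → EuclideanSpace ℂ ι} {x : M} (h : η x = 0) :
    wdg v η x = 0 := by simp [wdg, h]

theorem tsupport_wdg (v η : M → Fin 2 → EuclideanSpace ℂ ι) : tsupport (wdg v η) ⊆ tsupport η :=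
  closure_mono fun _ hx h => hx (wdg_eq_zero_right h)

theorem compact_wdg (v : M → Fin 2 → EuclideanSpace ℂ ι) {η : M → Fin 2 → EuclideanSpace ℂ ι}
    (h : HasCompactSupport η) : HasCompactSupport (wdg v η) :=
  h.mono' ((subset_tsupport _).trans (tsupport_wdg v η))

theorem tsupport_pr (v η : M → EuclideanSpace ℂ ι) : tsupport (pr v η) ⊆ tsupport η :=
  closure_mono fun x hx h => hx (by
    have h' : η x = 0 := h
    show bp (v x) (η x) = 0
    rw [h', bp_zero_right])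

theorem wdg_add_left (v v' η : M → Fin 2 → EuclideanSpace ℂ ι) (x : M) :
    wdg (fun y => v y + v' y) η x = wdg v η x + wdg v' η x := by
  simp only [wdg, Pi.add_apply, bp_add_left]; ring

theorem bp_neg_left (u v : EuclideanSpace ℂ ι) : bp (-u) v = -bp u v := by
  have := bp_smul_left (-1) u v
  simpa using this

theorem bp_neg_right (u v : EuclideanSpace ℂ ι) : bp u (-v) = -bp u v := by
  have := bp_smul_right (-1) u v
  simpa using this

theorem bp_sub_left (u u' v : EuclideanSpace ℂ ι) : bp (u - u') v = bp u v - bp u' v := by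
  rw [sub_eq_add_neg, bp_add_left, bp_neg_left, sub_eq_add_neg]

theorem bp_sub_right (u v v' : EuclideanSpace ℂ ι) : bp u (v - v') = bp u v - bp u v' := by
  rw [sub_eq_add_neg, bp_add_right, bp_neg_right, sub_eq_add_neg]

theorem wdg_sub_left (v v' η : M → Fin 2 → EuclideanSpace ℂ ι) (x : M) :
    wdg (fun y => v y - v' y) η x = wdg v η x - wdg v' η x := by
  simp only [wdg, Pi.sub_apply, bp_sub_left]; ring

/-- the adjoint -/
theorem bp_act (A : Matrix ι ι ℂ) (u v : EuclideanSpace ℂ ι) :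
    bp (LB.act A u) v = bp u (LB.act Aᵀ v) := by
  simp only [bp, act_apply, Finset.sum_mul, Finset.mul_sum, Matrix.transpose_apply]
  rw [Finset.sum_comm]
  exact Finset.sum_congr rfl fun i _ => Finset.sum_congr rfl fun j _ => by ring

section mfd

variable [IsManifold 𝓘(ℂ, C2) ω M]

theorem at2_wdg {n : WithTop ℕ∞} {κ₁ κ₂ : ℤ} {v η : M → Fin 2 → EuclideanSpace ℂ ι} {x : M}
    (hv : At1 n κ₁ v x) (hη : At1 n κ₂ η x) : At2 n (κ₁ + κ₂) (wdg v η) x :=
  At2.bilin11 (B := bpL (ι := ι)) hv hη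

theorem reg2_wdg {n : WithTop ℕ∞} {v η : M → Fin 2 → EuclideanSpace ℂ ι}
    (hv : ∀ x ∈ N, At1 n 0 v x) (hη : Reg1 n κ η) (hs : tsupport η ⊆ N) :
    Reg2 n κ (wdg v η) := by
  rw [reg2_iff_at]
  intro x
  by_cases hx : x ∈ tsupport η
  · have := at2_wdg (hv x (hs hx)) (hη.at x)
    rwa [zero_add] at this
  · have h0 : η =ᶠ[𝓝 x] 0 := notMem_tsupport_iff_eventuallyEq.1 hx
    refine (at2_zero (V := ℂ)).congr ?_
    filter_upwards [h0] with y hy
    exact wdg_eq_zero_right hy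

theorem reg2_pr_of {n : WithTop ℕ∞} {u φ : M → EuclideanSpace ℂ ι}
    (hu : ∀ x ∈ N, At0 n 0 u x) (hφ : Reg2 n κ φ) (hs : tsupport φ ⊆ N) :
    Reg2 n κ (pr u φ) := by
  rw [reg2_iff_at]
  intro x
  by_cases hx : x ∈ tsupport φ
  · have := At2.bilin (B := bpL (ι := ι)) (hu x (hs hx)) (hφ.at x)
    rwa [zero_add] at this
  · have h0 : φ =ᶠ[𝓝 x] 0 := notMem_tsupport_iff_eventuallyEq.1 hx
    refine (at2_zero (V := ℂ)).congr ?_
    filter_upwards [h0] with y hy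
    have hy' : φ y = 0 := hy
    show bp (u y) (φ y) = 0
    rw [hy', bp_zero_right]

theorem reg2_pr_of' {n : WithTop ℕ∞} {u φ : M → EuclideanSpace ℂ ι}
    (hu : ∀ x ∈ N, At2 n 0 u x) (hφ : Reg0 n κ φ) (hs : tsupport φ ⊆ N) :
    Reg2 n κ (pr u φ) := by
  rw [reg2_iff_at]
  intro x
  by_cases hx : x ∈ tsupport φ
  · have := At2.bilin' (B := bpL (ι := ι)) (hu x (hs hx)) (hφ.at x)
    rwa [zero_add] at this
  · have h0 : φ =ᶠ[𝓝 x] 0 := notMem_tsupport_iff_eventuallyEq.1 hx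
    refine (at2_zero (V := ℂ)).congr ?_
    filter_upwards [h0] with y hy
    have hy' : φ y = 0 := hy
    show bp (u y) (φ y) = 0
    rw [hy', bp_zero_right]

/-! ### Leibniz rules -/

variable {a : M → Fin 2 → ℂ}

/-- `∂̄ (u η) = ∂̄u ∧ η + u ∂̄η` -/
theorem leib0 {u : M → EuclideanSpace ℂ ι} {η : M → Fin 2 → EuclideanSpace ℂ ι} {x : M}
    (hu : At0 1 0 u x) (hη : At1 1 κ η x) (hux : LB.act (L.P x) (u x) = u x)
    (hηx : ∀ i, LB.act (L.dual.P x) (η x i) = η x i) :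
    dbar1 κ (fun y i => bp (u y) (η y i)) x =
      wdg (L.db0 a 0 u) η x + pr u (L.dual.db1 (-a) κ η) x := by
  have h1 := dbar1_bilin (B := bpL (ι := ι)) hu hη
  rw [zero_add] at h1
  simp only [bpL_apply] at h1
  rw [h1]
  have h2 : ∀ (d : EuclideanSpace ℂ ι) (i : Fin 2), bp (LB.act (L.P x) d) (η x i) = bp d (η x i) :=
    fun d i => by
      rw [bp_act]
      have := hηx i
      rw [show L.dual.P x = (L.P x)ᵀ from rfl] at this
      rw [this]
  have h3 : ∀ d : EuclideanSpace ℂ ι, bp (u x) (LB.act (L.dual.P x) d) = bp (u x) d := fun d => by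
    rw [show L.dual.P x = (L.P x)ᵀ from rfl, ← bp_act, hux]
  simp only [wdg, pr, LB.db0, LB.db1, bp_add_left, bp_add_right, bp_sub_right, bp_smul_left,
    bp_smul_right, h2, h3, Pi.neg_apply]
  ring

/-- `∂̄ (v φ) = ∂̄v φ - v ∧ ∂̄φ` -/
theorem leib1 {v : M → Fin 2 → EuclideanSpace ℂ ι} {φ : M → EuclideanSpace ℂ ι} {x : M}
    (hv : At1 1 0 v x) (hφ : At0 1 κ φ x) (hvx : ∀ i, LB.act (L.P x) (v x i) = v x i)
    (hφx : LB.act (L.dual.P x) (φ x) = φ x) :
    dbar1 κ (fun y i => bp (v y i) (φ y)) x =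
      pr (L.db1 a 0 v) φ x - wdg v (L.dual.db0 (-a) κ φ) x := by
  have h1 := dbar1_bilin' (B := bpL (ι := ι)) hv hφ
  rw [zero_add] at h1
  simp only [bpL_apply] at h1
  rw [h1]
  have h2 : ∀ (d : EuclideanSpace ℂ ι), bp (LB.act (L.P x) d) (φ x) = bp d (φ x) :=
    fun d => by
      rw [bp_act]
      rw [show L.dual.P x = (L.P x)ᵀ from rfl] at hφx
      rw [hφx]
  have h3 : ∀ (d : EuclideanSpace ℂ ι) (i : Fin 2),
      bp (v x i) (LB.act (L.dual.P x) d) = bp (v x i) d := fun d i => by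
    rw [show L.dual.P x = (L.P x)ᵀ from rfl, ← bp_act, hvx i]
  simp only [wdg, pr, LB.db0, LB.db1, bp_add_left, bp_add_right, bp_sub_left, bp_smul_left,
    bp_smul_right, h2, h3, Pi.neg_apply]
  ring

/-- a product of `u`, smooth on `N`, and a form with compact support in `N` -/
theorem reg1_bp {n : WithTop ℕ∞} {u : M → EuclideanSpace ℂ ι}
    {η : M → Fin 2 → EuclideanSpace ℂ ι} (hu : ∀ x ∈ N, At0 n 0 u x) (hη : Reg1 n κ η)
    (hs : tsupport η ⊆ N) : Reg1 n κ (fun y i => bp (u y) (η y i)) := by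
  rw [reg1_iff_at]
  intro x
  by_cases hx : x ∈ tsupport η
  · have := At1.bilin (B := bpL (ι := ι)) (hu x (hs hx)) (hη.at x)
    rwa [zero_add] at this
  · have h0 : η =ᶠ[𝓝 x] 0 := notMem_tsupport_iff_eventuallyEq.1 hx
    refine (at1_zero (V := ℂ)).congr ?_
    filter_upwards [h0] with y hy
    have hy' : η y = 0 := hy
    funext i
    simp [hy']

theorem reg1_bp' {n : WithTop ℕ∞} {v : M → Fin 2 → EuclideanSpace ℂ ι}
    {φ : M → EuclideanSpace ℂ ι} (hv : ∀ x ∈ N, At1 n 0 v x) (hφ : Reg0 n κ φ)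
    (hs : tsupport φ ⊆ N) : Reg1 n κ (fun y i => bp (v y i) (φ y)) := by
  rw [reg1_iff_at]
  intro x
  by_cases hx : x ∈ tsupport φ
  · have := At1.bilin' (B := bpL (ι := ι)) (hv x (hs hx)) (hφ.at x)
    rwa [zero_add] at this
  · have h0 : φ =ᶠ[𝓝 x] 0 := notMem_tsupport_iff_eventuallyEq.1 hx
    refine (at1_zero (V := ℂ)).congr ?_
    filter_upwards [h0] with y hy
    have hy' : φ y = 0 := hy
    funext i
    simp [hy']

theorem db1_eq_zero_off {η : M → Fin 2 → EuclideanSpace ℂ ι} {x : M} (hx : x ∉ tsupport η) :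
    L.db1 a κ η x = 0 := by
  have h0 : η =ᶠ[𝓝 x] fun _ _ => 0 := notMem_tsupport_iff_eventuallyEq.1 hx
  rw [LB.db1_congr h0]
  simp [LB.db1, FL.dbar1_zero, act_zero]

theorem tsupport_db1_subset (η : M → Fin 2 → EuclideanSpace ℂ ι) :
    tsupport (L.db1 a κ η) ⊆ tsupport η :=
  closure_minimal (fun x hx => by
    by_contra h
    exact hx (db1_eq_zero_off h)) (isClosed_tsupport η)

theorem T1on.db1 (ha : Reg1 ∞ 0 a) {η : M → Fin 2 → EuclideanSpace ℂ ι} (h : T1on L κ N η) :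
    T2on L κ N (L.db1 a κ η) :=
  ⟨LB.reg2_db1 ha h.reg, LB.Sec1.db1 L h.sec,
    h.cpt.mono' ((subset_tsupport _).trans (tsupport_db1_subset η)),
    (tsupport_db1_subset η).trans h.supp⟩

theorem T0on.db0 (ha : Reg1 ∞ 0 a) {φ : M → EuclideanSpace ℂ ι} (h : T0on L κ N φ) :
    T1on L κ N (L.db0 a κ φ) :=
  ⟨reg1_db0 L ha h.reg, sec1_db0 L a κ h.sec,
    h.cpt.mono' ((subset_tsupport _).trans (tsupport_db0_subset L a κ φ)),
    (tsupport_db0_subset L a κ φ).trans h.supp⟩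

/-! ### Stokes -/

variable [T2Space M]

theorem compact_bp1 {u : M → EuclideanSpace ℂ ι} {η : M → Fin 2 → EuclideanSpace ℂ ι}
    (h : HasCompactSupport η) : HasCompactSupport (fun y i => bp (u y) (η y i)) :=
  h.mono fun x hx h0 => hx (by funext i; simp [show η x = 0 from h0])

theorem compact_bp1' {v : M → Fin 2 → EuclideanSpace ℂ ι} {φ : M → EuclideanSpace ℂ ι}
    (h : HasCompactSupport φ) : HasCompactSupport (fun y i => bp (v y i) (φ y)) :=
  h.mono fun x hx h0 => hx (by funext i; simp [show φ x = 0 from h0])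

/-- `∫ ∂̄u ∧ η = - ∫ u ∂̄η` -/
theorem stokes0 (ha : Reg1 ∞ 0 a) {u : M → EuclideanSpace ℂ ι}
    {η : M → Fin 2 → EuclideanSpace ℂ ι} (hu : ∀ x ∈ N, At0 ∞ 0 u x)
    (hus : ∀ x ∈ N, LB.act (L.P x) (u x) = u x) (hη : T1on L.dual 1 N η) :
    intX (wdg (L.db0 a 0 u) η) = -intX (pr u (L.dual.db1 (-a) 1 η)) := by
  have hna : Reg1 ∞ 0 (-a) := reg1_neg ha
  have h1 : Reg1 1 1 (fun y i => bp (u y) (η y i)) :=
    (reg1_bp hu hη.reg hη.supp).of_le (by simp)
  have h2 := intX_dbar1 h1 (compact_bp1 hη.cpt)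
  have h3 : dbar1 1 (fun y i => bp (u y) (η y i)) =
      fun x => wdg (L.db0 a 0 u) η x + pr u (L.dual.db1 (-a) 1 η) x := by
    funext x
    by_cases hx : x ∈ tsupport η
    · exact leib0 ((hu x (hη.supp hx)).of_le (by simp)) ((hη.reg.at x).of_le (by simp))
        (hus x (hη.supp hx)) (fun i => hη.sec x i)
    · have h0 : η =ᶠ[𝓝 x] fun _ _ => 0 := notMem_tsupport_iff_eventuallyEq.1 hx
      have h4 : (fun y i => bp (u y) (η y i)) =ᶠ[𝓝 x] fun _ _ => (0 : ℂ) := by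
        filter_upwards [h0] with y hy
        funext i
        simp [hy]
      rw [FL.dbar1_congr h4, FL.dbar1_zero, wdg_eq_zero_right (h0.eq_of_nhds), pr,
        db1_eq_zero_off hx, bp_zero_right, add_zero]
  rw [h3] at h2
  have hd : ∀ x ∈ N, At1 ∞ 0 (L.db0 a 0 u) x := fun x hx =>
    LB.at1_db0 le_rfl (ha.at x) (hu x hx) infty_add_one_le
  have hr1 : Reg2 ∞ 1 (wdg (L.db0 a 0 u) η) := reg2_wdg hd hη.reg hη.supp
  have hr2 : Reg2 ∞ 1 (pr u (L.dual.db1 (-a) 1 η)) :=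
    reg2_pr_of hu (hη.db1 hna).reg (hη.db1 hna).supp
  rw [intX_add hr1.locInt (compact_wdg _ hη.cpt) hr2.locInt (compact_pr _ (hη.db1 hna).cpt)] at h2
  exact eq_neg_of_add_eq_zero_left h2

/-- `∫ v ∧ ∂̄φ = ∫ ∂̄v φ` -/
theorem stokes1 (ha : Reg1 ∞ 0 a) {v : M → Fin 2 → EuclideanSpace ℂ ι}
    {φ : M → EuclideanSpace ℂ ι} (hv : ∀ x ∈ N, At1 ∞ 0 v x)
    (hvs : ∀ x ∈ N, ∀ i, LB.act (L.P x) (v x i) = v x i) (hφ : T0on L.dual 1 N φ) :
    intX (wdg v (L.dual.db0 (-a) 1 φ)) = intX (pr (L.db1 a 0 v) φ) := by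
  have hna : Reg1 ∞ 0 (-a) := reg1_neg ha
  have h1 : Reg1 1 1 (fun y i => bp (v y i) (φ y)) :=
    (reg1_bp' hv hφ.reg hφ.supp).of_le (by simp)
  have h2 := intX_dbar1 h1 (compact_bp1' hφ.cpt)
  have h3 : dbar1 1 (fun y i => bp (v y i) (φ y)) =
      fun x => pr (L.db1 a 0 v) φ x - wdg v (L.dual.db0 (-a) 1 φ) x := by
    funext x
    by_cases hx : x ∈ tsupport φ
    · exact leib1 ((hv x (hφ.supp hx)).of_le (by simp)) ((hφ.reg.at x).of_le (by simp))
        (hvs x (hφ.supp hx)) (hφ.sec x)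
    · have h0 : φ =ᶠ[𝓝 x] 0 := notMem_tsupport_iff_eventuallyEq.1 hx
      have h4 : (fun y i => bp (v y i) (φ y)) =ᶠ[𝓝 x] fun _ _ => (0 : ℂ) := by
        filter_upwards [h0] with y hy
        funext i
        simp [show φ y = 0 from hy]
      have h5 : L.dual.db0 (-a) 1 φ x = 0 := by
        rw [H306.db0_congr L.dual (-a) h0, H306.db0_zero]; rfl
      rw [FL.dbar1_congr h4, FL.dbar1_zero, wdg_eq_zero_right h5, pr,
        show φ x = 0 from h0.eq_of_nhds, bp_zero_right, sub_zero]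
  rw [h3] at h2
  have hd : ∀ x ∈ N, At2 ∞ 0 (L.db1 a 0 v) x := fun x hx =>
    LB.at2_db1 le_rfl (ha.at x) (hv x hx) infty_add_one_le
  have hr1 : Reg2 ∞ 1 (wdg v (L.dual.db0 (-a) 1 φ)) := reg2_wdg hv (hφ.db0 hna).reg (hφ.db0 hna).supp
  have hr2 : Reg2 ∞ 1 (pr (L.db1 a 0 v) φ) := reg2_pr_of' hd hφ.reg hφ.supp
  rw [intX_sub hr2.locInt (compact_pr _ hφ.cpt) hr1.locInt (compact_wdg _ (hφ.db0 hna).cpt)] at h2
  exact (sub_eq_zero.1 h2).symm

end mfd

end Vale.Agent.P267.H306
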